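import Vale.Agent.Lib.P060.Convert

namespace Vale.Agent.Lib.P060

open Classical

universe u

variable {W : Type u} (G : SimpleGraph W)

/-- `G` has no induced matching of size two (no induced `2K_2`): any two vertex-disjoint edges
are joined by an edge. -/
def TwoK2Free : Prop :=
  ∀ a b c d, G.Adj a b → G.Adj c d → a ≠ c → a ≠ d → b ≠ c → b ≠ d →
    G.Adj a c ∨ G.Adj a d ∨ G.Adj b c ∨ G.Adj b d

/-- `PMinor G t`: a `K_t` minor of `G` all of whose branch sets are single vertices or edges. -/
def PMinor (t : ℕ) : Prop :=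
  ∃ L : List (W × W), L.length = t ∧ (∀ e ∈ L, e.1 = e.2 ∨ G.Adj e.1 e.2) ∧
    L.Pairwise (PairRel G)

theorem PMinor.mono {s t : ℕ} (hst : s ≤ t) (h : PMinor G t) : PMinor G s := by
  obtain ⟨L, h1, h2, h3⟩ := h
  refine ⟨L.take s, by simp [h1, hst], fun e he => h2 e (List.mem_of_mem_take he), ?_⟩
  exact h3.sublist (List.take_sublist s L)

theorem PMinor.hasCliqueMinor {t : ℕ} (h : PMinor G t) : HasCliqueMinor G t := by
  obtain ⟨L, h1, hL1, hL2⟩ := h
  subst h1
  have hrel : ∀ i j : Fin L.length, i ≠ j → PairRel G (L.get i) (L.get j) := by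
    intro i j hij
    rcases lt_or_gt_of_ne hij with hlt | hgt
    · exact hL2.rel_get_of_lt hlt
    · exact (hL2.rel_get_of_lt hgt).symm
  refine ⟨fun i => ({(L.get i).1, (L.get i).2} : Set W), ?_, ?_, ?_⟩
  · intro i
    exact induce_pair_connected G (hL1 _ (List.get_mem L i))
  · intro i j hij
    obtain ⟨h1, h2, h3, h4, _⟩ := hrel i j hij
    rw [Set.disjoint_left]
    intro a ha hb
    simp only [Set.mem_insert_iff, Set.mem_singleton_iff] at ha hb
    rcases ha with rfl | rfl <;> rcases hb with hb | hb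
    · exact h1 hb
    · exact h2 hb
    · exact h3 hb
    · exact h4 hb
  · intro i j hij
    obtain ⟨_, _, _, _, h5⟩ := hrel i j hij
    rcases h5 with h | h | h | h
    · exact ⟨_, by simp, _, by simp, h⟩
    · exact ⟨_, by simp, _, by simp, h⟩
    · exact ⟨_, by simp, _, by simp, h⟩
    · exact ⟨_, by simp, _, by simp, h⟩

theorem TwoK2Free.induce (h : TwoK2Free G) (s : Set W) : TwoK2Free (G.induce s) := by
  intro a b c d hab hcd hac had hbc hbd
  exact h a b c d hab hcd (fun e => hac (Subtype.ext e)) (fun e => had (Subtype.ext e))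
    (fun e => hbc (Subtype.ext e)) (fun e => hbd (Subtype.ext e))

theorem PMinor.of_induce (s : Set W) {t : ℕ} (h : PMinor (G.induce s) t) : PMinor G t := by
  obtain ⟨L, h1, h2, h3⟩ := h
  refine ⟨L.map (fun e => ((e.1 : W), (e.2 : W))), by simp [h1], ?_, ?_⟩
  · intro e he
    obtain ⟨e', he', rfl⟩ := List.mem_map.1 he
    rcases h2 e' he' with h | h
    · exact Or.inl (congrArg Subtype.val h)
    · exact Or.inr h
  · rw [List.pairwise_map]
    refine h3.imp ?_
    rintro e f ⟨a1, a2, a3, a4, a5⟩
    exact ⟨fun h => a1 (Subtype.ext h), fun h => a2 (Subtype.ext h), fun h => a3 (Subtype.ext h),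
      fun h => a4 (Subtype.ext h), a5⟩

theorem PMinor.join (s : Set W) (hjoin : ∀ x ∈ s, ∀ z, z ∉ s → G.Adj x z) {t₁ t₂ : ℕ}
    (h₁ : PMinor (G.induce s) t₁) (h₂ : PMinor (G.induce sᶜ) t₂) : PMinor G (t₁ + t₂) := by
  obtain ⟨L₁, a1, a2, a3⟩ := h₁
  obtain ⟨L₂, b1, b2, b3⟩ := h₂
  refine ⟨L₁.map (fun e => ((e.1 : W), (e.2 : W))) ++ L₂.map (fun e => ((e.1 : W), (e.2 : W))),
    by simp [a1, b1], ?_, ?_⟩
  · intro e he
    rcases List.mem_append.1 he with he | he
    · obtain ⟨e', he', rfl⟩ := List.mem_map.1 he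
      rcases a2 e' he' with h | h
      · exact Or.inl (congrArg Subtype.val h)
      · exact Or.inr h
    · obtain ⟨e', he', rfl⟩ := List.mem_map.1 he
      rcases b2 e' he' with h | h
      · exact Or.inl (congrArg Subtype.val h)
      · exact Or.inr h
  · rw [List.pairwise_append]
    refine ⟨?_, ?_, ?_⟩
    · rw [List.pairwise_map]
      refine a3.imp ?_
      rintro e f ⟨c1, c2, c3, c4, c5⟩
      exact ⟨fun h => c1 (Subtype.ext h), fun h => c2 (Subtype.ext h),
        fun h => c3 (Subtype.ext h), fun h => c4 (Subtype.ext h), c5⟩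
    · rw [List.pairwise_map]
      refine b3.imp ?_
      rintro e f ⟨c1, c2, c3, c4, c5⟩
      exact ⟨fun h => c1 (Subtype.ext h), fun h => c2 (Subtype.ext h),
        fun h => c3 (Subtype.ext h), fun h => c4 (Subtype.ext h), c5⟩
    · intro e he f hf
      obtain ⟨e', -, rfl⟩ := List.mem_map.1 he
      obtain ⟨f', -, rfl⟩ := List.mem_map.1 hf
      have e1 : (e'.1 : W) ∈ s := e'.1.2
      have e2 : (e'.2 : W) ∈ s := e'.2.2
      have f1 : (f'.1 : W) ∉ s := f'.1.2
      have f2 : (f'.2 : W) ∉ s := f'.2.2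
      refine ⟨?_, ?_, ?_, ?_, Or.inl (hjoin _ e1 _ f1)⟩
      · intro h
        have h' : (e'.1 : W) = f'.1 := h
        exact f1 (h' ▸ e1)
      · intro h
        have h' : (e'.1 : W) = f'.2 := h
        exact f2 (h' ▸ e1)
      · intro h
        have h' : (e'.2 : W) = f'.1 := h
        exact f1 (h' ▸ e2)
      · intro h
        have h' : (e'.2 : W) = f'.2 := h
        exact f2 (h' ▸ e2)

theorem colorable_join (s : Set W) {t₁ t₂ : ℕ} (h₁ : (G.induce s).Colorable t₁)
    (h₂ : (G.induce sᶜ).Colorable t₂) : G.Colorable (t₁ + t₂) := by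
  obtain ⟨C₁⟩ := h₁
  obtain ⟨C₂⟩ := h₂
  refine ⟨SimpleGraph.Coloring.mk (fun x => if h : x ∈ s then Fin.castAdd t₂ (C₁ ⟨x, h⟩)
    else Fin.natAdd t₁ (C₂ ⟨x, h⟩)) ?_⟩
  intro x y hxy
  by_cases hx : x ∈ s <;> by_cases hy : y ∈ s
  · simp only [hx, hy, dif_pos]
    intro h
    have h' := Fin.castAdd_injective _ _ h
    exact C₁.valid (v := ⟨x, hx⟩) (w := ⟨y, hy⟩) hxy h'
  · simp only [hx, hy, dif_pos, dif_neg, not_false_iff]
    intro h
    have := congrArg Fin.val h
    simp only [Fin.val_castAdd, Fin.val_natAdd] at this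
    have := (C₁ ⟨x, hx⟩).2
    omega
  · simp only [hx, hy, dif_pos, dif_neg, not_false_iff]
    intro h
    have := congrArg Fin.val h
    simp only [Fin.val_castAdd, Fin.val_natAdd] at this
    have := (C₁ ⟨y, hy⟩).2
    omega
  · simp only [hx, hy, dif_neg, not_false_iff]
    intro h
    have h' := Fin.natAdd_injective _ _ h
    exact C₂.valid (v := ⟨x, hx⟩) (w := ⟨y, hy⟩) hxy h'

/-- A colouring is proper. -/
def Proper {α : Type*} (c : W → α) : Prop := ∀ a b, G.Adj a b → c a ≠ c b

/-- The vertex `x` is alone in its colour class. -/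
def Sing {α : Type*} (c : W → α) (x : W) : Prop := ∀ y, c y = c x → y = x

theorem colorable_of_proper {k : ℕ} (c : W → Fin k) (hc : Proper G c) : G.Colorable k :=
  ⟨SimpleGraph.Coloring.mk c (fun {a b} hab => hc a b hab)⟩

theorem colorable_of_missing {k : ℕ} (c : W → Fin (k + 1)) (hc : Proper G c) (j : Fin (k + 1))
    (hj : ∀ a, c a ≠ j) : G.Colorable k := by
  have hex : ∀ a, ∃ i : Fin k, j.succAbove i = c a := fun a => Fin.exists_succAbove_eq (hj a)
  choose f hf using hex
  refine colorable_of_proper G f ?_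
  intro a b hab h
  exact hc a b hab (by rw [← hf a, ← hf b, h])

theorem sing_adj {k : ℕ} (hk : ¬G.Colorable k) (c : W → Fin (k + 1)) (hc : Proper G c)
    (x y : W) (hxy : x ≠ y) (hx : Sing c x) (hy : Sing c y) : G.Adj x y := by
  by_contra hadj
  apply hk
  refine colorable_of_missing G (fun a => if a = y then c x else c a) ?_ (c y) ?_
  · intro a b hab
    by_cases ha : a = y <;> by_cases hb : b = y
    · subst ha; subst hb; exact absurd hab (G.loopless.irrefl _)
    · simp only [ha, hb, if_true, if_false]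
      intro h
      have : b = x := hx b h.symm
      subst this; subst ha
      exact hadj hab.symm
    · simp only [ha, hb, if_true, if_false]
      intro h
      have : a = x := hx a h
      subst this; subst hb
      exact hadj hab
    · simp only [ha, hb, if_false]
      exact hc a b hab
  · intro a
    by_cases ha : a = y
    · simp only [ha, if_true]
      intro h
      exact hxy (hy x h)
    · simp only [ha, if_false]
      intro h
      exact ha (hy a h)

/-- Function form of vertex-criticality. -/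
theorem crit_fn {k : ℕ} (hk : 0 < k) (x : W)
    (h : (G.induce ({x}ᶜ : Set W)).Colorable k) :
    ∃ c : W → Fin k, ∀ a b, a ≠ x → b ≠ x → G.Adj a b → c a ≠ c b := by
  obtain ⟨C⟩ := h
  refine ⟨fun a => if ha : a = x then ⟨0, hk⟩ else C ⟨a, ha⟩, ?_⟩
  intro a b ha hb hab
  simp only [ha, hb, dif_neg, not_false_iff]
  exact C.valid (v := ⟨a, ha⟩) (w := ⟨b, hb⟩) hab

theorem crit_degree [Fintype W] {k : ℕ} (hk : ¬G.Colorable k)
    (hcrit : ∀ x, ∃ c : W → Fin k, ∀ a b, a ≠ x → b ≠ x → G.Adj a b → c a ≠ c b) (x : W) :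
    k ≤ (G.neighborFinset x).card := by
  by_contra hlt
  push Not at hlt
  obtain ⟨c, hc⟩ := hcrit x
  have hex : ∃ j : Fin k, j ∉ (G.neighborFinset x).image c := by
    by_contra hall
    push Not at hall
    have h1 : (Finset.univ : Finset (Fin k)) ⊆ (G.neighborFinset x).image c :=
      fun j _ => hall j
    have h2 := Finset.card_le_card h1
    have h3 : ((G.neighborFinset x).image c).card ≤ (G.neighborFinset x).card :=
      Finset.card_image_le
    simp only [Finset.card_univ, Fintype.card_fin] at h2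
    omega
  obtain ⟨j, hj⟩ := hex
  apply hk
  refine colorable_of_proper G (fun a => if a = x then j else c a) ?_
  intro a b hab
  by_cases ha : a = x <;> by_cases hb : b = x
  · subst ha; subst hb; exact absurd hab (G.loopless.irrefl _)
  · simp only [ha, hb, if_true, if_false]
    intro h
    apply hj
    rw [h]
    refine Finset.mem_image_of_mem c ?_
    rw [SimpleGraph.mem_neighborFinset]
    subst ha; exact hab
  · simp only [ha, hb, if_true, if_false]
    intro h
    apply hj
    rw [← h]
    refine Finset.mem_image_of_mem c ?_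
    rw [SimpleGraph.mem_neighborFinset]
    subst hb; exact hab.symm
  · simp only [ha, hb, if_false]
    exact hc a b ha hb hab

theorem crit_nested {k : ℕ} (hk : ¬G.Colorable k)
    (hcrit : ∀ x, ∃ c : W → Fin k, ∀ a b, a ≠ x → b ≠ x → G.Adj a b → c a ≠ c b)
    (u v : W) (huv : u ≠ v) (hadj : ¬G.Adj u v) : ∃ z, G.Adj u z ∧ ¬G.Adj v z := by
  by_contra hall
  push Not at hall
  obtain ⟨c, hc⟩ := hcrit u
  apply hk
  refine colorable_of_proper G (fun a => if a = u then c v else c a) ?_
  intro a b hab
  by_cases ha : a = u <;> by_cases hb : b = u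
  · subst ha; subst hb; exact absurd hab (G.loopless.irrefl _)
  · simp only [ha, hb, if_true, if_false]
    subst ha
    have hvb : G.Adj v b := hall b hab
    exact hc v b (Ne.symm huv) hb hvb
  · simp only [ha, hb, if_true, if_false]
    subst hb
    have hva : G.Adj v a := hall a hab.symm
    exact (hc v a (Ne.symm huv) ha hva).symm
  · simp only [ha, hb, if_false]
    exact hc a b ha hb hab

/-- Extending a colouring of `G - z` by a new colour on `z`. -/
theorem exists_proper_sing {k : ℕ} (z : W)
    (hz : ∃ c : W → Fin k, ∀ a b, a ≠ z → b ≠ z → G.Adj a b → c a ≠ c b) :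
    ∃ c : W → Fin (k + 1), Proper G c ∧ Sing c z := by
  obtain ⟨c, hc⟩ := hz
  refine ⟨fun a => if a = z then Fin.last k else (c a).castSucc, ?_, ?_⟩
  · intro a b hab
    by_cases ha : a = z <;> by_cases hb : b = z
    · subst ha; subst hb; exact absurd hab (G.loopless.irrefl _)
    · simp only [ha, hb, if_true, if_false]
      exact (Fin.castSucc_lt_last _).ne'
    · simp only [ha, hb, if_true, if_false]
      exact (Fin.castSucc_lt_last _).ne
    · simp only [ha, hb, if_false]
      intro h
      exact hc a b ha hb hab (Fin.castSucc_injective _ h)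
  · intro y hy
    by_contra hyz
    simp only [hyz, if_true, if_false] at hy
    exact (Fin.castSucc_lt_last _).ne hy

end Vale.Agent.Lib.P060
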