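import Vale.Agent.Lib.P060.TwoK2.Match

namespace Vale.Agent.Lib.P060

open Classical

universe u

variable {W : Type u} [Fintype W] {G : SimpleGraph W}

theorem exists_min_match (X : Finset W) :
    ∃ σ, IsMatch G X σ ∧ ∀ σ', IsMatch G X σ' → (fixes σ).card ≤ (fixes σ').card := by
  have hid : IsMatch G X (id : W → W) := ⟨fun _ => rfl, fun _ => Or.inl rfl, fun _ _ => rfl⟩
  obtain ⟨σ, hσmem, hσmin⟩ := Finset.exists_min_image
    (Finset.univ.filter (fun σ : W → W => IsMatch G X σ)) (fun σ => (fixes σ).card)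
    ⟨id, by simp [hid]⟩
  simp only [Finset.mem_filter, Finset.mem_univ, true_and] at hσmem hσmin
  exact ⟨σ, hσmem, hσmin⟩

/-- With at least `2k+2` vertices, minimum degree at least `k` and no nested non-adjacent
pair, a `2K_2`-free graph has a matching with `k+1` edges. -/
theorem exists_match_of_card (h2K2 : TwoK2Free G) {k : ℕ}
    (hδ : ∀ x, k ≤ (G.neighborFinset x).card)
    (hnest : ∀ u v, u ≠ v → ¬G.Adj u v → ∃ z, G.Adj u z ∧ ¬G.Adj v z)
    (hn : 2 * k + 2 ≤ Fintype.card W) :
    ∃ σ, IsMatch G ∅ σ ∧ 2 * k + 2 ≤ (moved σ).card := by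
  obtain ⟨σ, hσ, hmin⟩ := exists_min_match (G := G) ∅
  refine ⟨σ, hσ, ?_⟩
  by_contra hlt
  push Not at hlt
  obtain ⟨L, hL1, -, -⟩ := hσ.exists_half
  have hsum := fixes_add_moved σ
  have h2 : 1 < (fixes σ).card := by omega
  obtain ⟨u, hu, u', hu', huu'⟩ := Finset.one_lt_card.1 h2
  simp only [fixes, Finset.mem_filter, Finset.mem_univ, true_and] at hu hu'
  have key := hσ.deg_sum hmin hu hu' huu' (Finset.notMem_empty _) (Finset.notMem_empty _)
  have e1 : (G.neighborFinset u).filter (· ∉ (∅ : Finset W)) = G.neighborFinset u := by simp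
  have e2 : (G.neighborFinset u').filter (· ∉ (∅ : Finset W)) = G.neighborFinset u' := by simp
  rw [e1, e2] at key
  have := hδ u
  have := hδ u'
  have k1 := key.1
  have hall := key.2 (by omega)
  have hnadj : ¬G.Adj u u' := fun h1 =>
    hσ.nbr_moved hmin hu (Finset.notMem_empty _) h1 (Finset.notMem_empty _) hu'
  rcases hσ.nested_of_eq h2K2 hmin hu hu' huu' (Finset.notMem_empty _) (Finset.notMem_empty _)
    hall with h1 | h1
  · obtain ⟨z, hz1, hz2⟩ := hnest u u' huu' hnadj
    exact hz2 (h1 z hz1 (Finset.notMem_empty _))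
  · obtain ⟨z, hz1, hz2⟩ := hnest u' u (Ne.symm huu') (fun h => hnadj h.symm)
    exact hz2 (h1 z hz1 (Finset.notMem_empty _))

theorem card_nbr_le_filter_succ (u q : W) :
    (G.neighborFinset u).card ≤
      ((G.neighborFinset u).filter (· ∉ ({q} : Finset W))).card + 1 := by
  have hsub : G.neighborFinset u ⊆
      insert q ((G.neighborFinset u).filter (· ∉ ({q} : Finset W))) := by
    intro z hz
    by_cases hzq : z = q
    · simp [hzq]
    · rw [Finset.mem_insert, Finset.mem_filter]
      right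
      exact ⟨hz, by simpa using hzq⟩
  have := Finset.card_le_card hsub
  have := Finset.card_insert_le q ((G.neighborFinset u).filter (· ∉ ({q} : Finset W)))
  omega

theorem card_filter_eq_of_not_adj (u q : W) (h : ¬G.Adj u q) :
    ((G.neighborFinset u).filter (· ∉ ({q} : Finset W))).card = (G.neighborFinset u).card := by
  rw [Finset.filter_true_of_mem]
  intro z hz
  rw [SimpleGraph.mem_neighborFinset] at hz
  simp only [Finset.mem_singleton]
  rintro rfl
  exact h hz

/-- With exactly `2k+1` vertices, minimum degree at least `k` and no nested non-adjacent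
pair, a `2K_2`-free graph minus any vertex `q` has a perfect matching. -/
theorem exists_perfect_avoid (h2K2 : TwoK2Free G) {k : ℕ}
    (hδ : ∀ x, k ≤ (G.neighborFinset x).card)
    (hnest : ∀ u v, u ≠ v → ¬G.Adj u v → ∃ z, G.Adj u z ∧ ¬G.Adj v z)
    (hn : Fintype.card W = 2 * k + 1) (q : W) :
    ∃ σ, IsMatch G {q} σ ∧ ∀ v, σ v = v → v = q := by
  obtain ⟨σ, hσ, hmin⟩ := exists_min_match (G := G) {q}
  refine ⟨σ, hσ, ?_⟩
  by_contra hcon
  push Not at hcon
  obtain ⟨u, hu, huq⟩ := hcon
  obtain ⟨L, hL1, -, -⟩ := hσ.exists_half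
  have hsum := fixes_add_moved σ
  have hqfix : q ∈ fixes σ := by
    simp [fixes, hσ.avoid q (Finset.mem_singleton_self q)]
  have hufix : u ∈ fixes σ := by simp [fixes, hu]
  have hcard2 : 1 < (fixes σ).card := Finset.one_lt_card.2 ⟨q, hqfix, u, hufix, Ne.symm huq⟩
  have hcard3 : 3 ≤ (fixes σ).card := by omega
  have hne : (((fixes σ).erase q).erase u).Nonempty := by
    rw [← Finset.card_pos]
    have h1 : ((fixes σ).erase q).card = (fixes σ).card - 1 := Finset.card_erase_of_mem hqfix
    have h2 : (((fixes σ).erase q).erase u).card = ((fixes σ).erase q).card - 1 :=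
      Finset.card_erase_of_mem (Finset.mem_erase.2 ⟨huq, hufix⟩)
    omega
  obtain ⟨u', hu'mem⟩ := hne
  simp only [Finset.mem_erase, fixes, Finset.mem_filter, Finset.mem_univ, true_and] at hu'mem
  obtain ⟨hu'u, hu'q, hu'⟩ := hu'mem
  have huX : u ∉ ({q} : Finset W) := by simpa using huq
  have hu'X : u' ∉ ({q} : Finset W) := by simpa using hu'q
  have key := hσ.deg_sum hmin hu hu' (Ne.symm hu'u) huX hu'X
  have c1 := card_nbr_le_filter_succ (G := G) u q
  have c2 := card_nbr_le_filter_succ (G := G) u' q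
  have := hδ u
  have := hδ u'
  have k1 := key.1
  have hall := key.2 (by omega)
  have hqu : G.Adj u q := by
    by_contra hnq
    have := card_filter_eq_of_not_adj (G := G) u q hnq
    omega
  have hqu' : G.Adj u' q := by
    by_contra hnq
    have := card_filter_eq_of_not_adj (G := G) u' q hnq
    omega
  have hnadj : ¬G.Adj u u' := fun h1 => hσ.nbr_moved hmin hu huX h1 hu'X hu'
  rcases hσ.nested_of_eq h2K2 hmin hu hu' (Ne.symm hu'u) huX hu'X hall with h1 | h1
  · obtain ⟨z, hz1, hz2⟩ := hnest u u' (Ne.symm hu'u) hnadj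
    by_cases hzq : z = q
    · subst hzq; exact hz2 hqu'
    · exact hz2 (h1 z hz1 (by simpa using hzq))
  · obtain ⟨z, hz1, hz2⟩ := hnest u' u hu'u (fun h => hnadj h.symm)
    by_cases hzq : z = q
    · subst hzq; exact hz2 hqu
    · exact hz2 (h1 z hz1 (by simpa using hzq))

end Vale.Agent.Lib.P060
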