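import Vale.Agent.Lib.P060.TwoK2.Perfect

namespace Vale.Agent.Lib.P060

open Classical

universe u

variable {W : Type u} [Fintype W] {G : SimpleGraph W} {q : W} {σ : W → W}

/-- The Hall step: if every matching edge inside the neighbourhood of `q` misses the partner
`σ a` of a bad vertex `a`, we reach a contradiction. -/
theorem PerfQ.final (h2K2 : TwoK2Free G) {k : ℕ} (hδ : ∀ x, k ≤ (G.neighborFinset x).card)
    (hn : Fintype.card W = 2 * k + 1) (h : PerfQ G q σ)
    (hmin : ∀ σ', PerfQ G q σ' → (bad G q σ).card ≤ (bad G q σ').card)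
    {a : W} (ha : a ∈ bad G q σ)
    (hall : ∀ y, G.Adj q y → G.Adj q (σ y) → ¬G.Adj (σ a) y) : False := by
  obtain ⟨⟨haq, haN⟩, ⟨hbq, hbN⟩⟩ := mem_bad.1 ha
  have hσb : σ (σ a) = a := h.1.invol a
  have hab : G.Adj a (σ a) := h.adj haq
  have hcardNR := card_N_R (G := G) q
  have hNk := hδ q
  have hRk : (Finset.univ.filter (InR G q)).card ≤ k := by omega
  have hbR : σ a ∈ Finset.univ.filter (InR G q) := by
    rw [Finset.mem_filter]; exact ⟨Finset.mem_univ _, hbq, hbN⟩
  -- a matching edge inside the neighbourhood of `q`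
  have hexc : ∃ c, G.Adj q c ∧ G.Adj q (σ c) := by
    by_contra hno
    push Not at hno
    have hmaps : Set.MapsTo σ (G.neighborFinset q : Set W)
        ((Finset.univ.filter (InR G q)).erase (σ a) : Finset W) := by
      intro y hy
      rw [Finset.mem_coe, SimpleGraph.mem_neighborFinset] at hy
      have hyq : y ≠ q := ne_q_of_adj hy
      rw [Finset.mem_coe, Finset.mem_erase, Finset.mem_filter]
      refine ⟨?_, Finset.mem_univ _, h.ne_q hyq, hno y hy⟩
      intro e
      have : y = a := h.1.injective e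
      subst this
      exact haN hy
    have hle := Finset.card_le_card_of_injOn σ hmaps (h.1.injective.injOn)
    have hlt := Finset.card_erase_lt_of_mem hbR
    omega
  obtain ⟨c, hc1, hc2⟩ := hexc
  have hcq : c ≠ q := ne_q_of_adj hc1
  have hdq : σ c ≠ q := h.ne_q hcq
  have hσd : σ (σ c) = c := h.1.invol c
  obtain ⟨hac, had, hbc, hbd⟩ :
      G.Adj a c ∧ G.Adj a (σ c) ∧ ¬G.Adj (σ a) c ∧ ¬G.Adj (σ a) (σ c) := by
    rcases h.point h2K2 hmin ha hc1 hc2 with p | p
    · exact p
    · exact absurd p.1 (hall c hc1 hc2)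
  -- the sets
  obtain ⟨R', hR'⟩ : ∃ R' : Finset W, R' =
      (Finset.univ.filter (InR G q)).filter (fun r => G.Adj q (σ r)) := ⟨_, rfl⟩
  have memR' : ∀ r, r ∈ R' ↔ InR G q r ∧ G.Adj q (σ r) := by
    intro r; rw [hR']; simp
  obtain ⟨R₁, hR₁⟩ : ∃ R₁ : Finset W, R₁ = insert (σ a) R' := ⟨_, rfl⟩
  obtain ⟨N₁, hN₁⟩ : ∃ N₁ : Finset W, N₁ = insert (σ c) (R'.image σ) := ⟨_, rfl⟩
  have hbR' : σ a ∉ R' := by
    rw [memR']; rintro ⟨-, h1⟩; rw [hσb] at h1; exact haN h1
  have hdN' : σ c ∉ R'.image σ := by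
    rw [Finset.mem_image]
    rintro ⟨r, hr, hrd⟩
    have : r = c := h.1.injective hrd
    subst this
    exact ((memR' _).1 hr).1.2 hc1
  have hcardR₁ : R₁.card = R'.card + 1 := by rw [hR₁, Finset.card_insert_of_notMem hbR']
  have hcardN₁ : N₁.card = R'.card + 1 := by
    rw [hN₁, Finset.card_insert_of_notMem hdN', Finset.card_image_of_injective _ h.1.injective]
  have hR₁R : ∀ v ∈ R₁, InR G q v ∧ v ≠ a := by
    intro v hv
    rw [hR₁] at hv
    rcases Finset.mem_insert.1 hv with rfl | hv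
    · exact ⟨⟨hbq, hbN⟩, h.ne haq⟩
    · have hv' := (memR' v).1 hv
      refine ⟨hv'.1, ?_⟩
      rintro rfl
      exact hbN hv'.2
  have hN₁N : ∀ v ∈ N₁, G.Adj q v ∧ v ≠ c := by
    intro v hv
    rw [hN₁] at hv
    rcases Finset.mem_insert.1 hv with rfl | hv
    · exact ⟨hc2, h.ne hcq⟩
    · obtain ⟨r, hr, rfl⟩ := Finset.mem_image.1 hv
      have hr' := (memR' r).1 hr
      refine ⟨hr'.2, ?_⟩
      intro e
      have hrd : r = σ c := by
        have := congrArg σ e
        rw [h.1.invol] at this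
        exact this
      rw [hrd] at hr'
      exact hr'.1.2 hc2
  have hbR₁ : σ a ∈ R₁ := by rw [hR₁]; exact Finset.mem_insert_self _ _
  have hdN₁ : σ c ∈ N₁ := by rw [hN₁]; exact Finset.mem_insert_self _ _
  have hR'R₁ : ∀ r ∈ R', r ∈ R₁ := fun r hr => by rw [hR₁]; exact Finset.mem_insert_of_mem hr
  have hR'N₁ : ∀ r ∈ R', σ r ∈ N₁ := fun r hr => by
    rw [hN₁]; exact Finset.mem_insert_of_mem (Finset.mem_image_of_mem σ hr)
  have hR₁cases : ∀ v ∈ R₁, v = σ a ∨ v ∈ R' := fun v hv => by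
    rw [hR₁] at hv; exact Finset.mem_insert.1 hv
  have hN₁cases : ∀ v ∈ N₁, v = σ c ∨ ∃ r ∈ R', σ r = v := fun v hv => by
    rw [hN₁] at hv
    rcases Finset.mem_insert.1 hv with hv | hv
    · exact Or.inl hv
    · exact Or.inr (Finset.mem_image.1 hv)
  clear hR₁ hN₁
  let t : {r // r ∈ R₁} → Finset W := fun r => N₁.filter (fun y => G.Adj r.1 y)
  have ht : ∀ r y, y ∈ t r ↔ y ∈ N₁ ∧ G.Adj r.1 y := fun r y => by
    simp only [t, Finset.mem_filter]
  by_cases hH : ∀ s : Finset {r // r ∈ R₁}, s.card ≤ (s.biUnion t).card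
  · obtain ⟨f, hf1, hf2⟩ := (Finset.all_card_le_biUnion_card_iff_exists_injective t).1 hH
    have hf2' : ∀ r, f r ∈ N₁ ∧ G.Adj r.1 (f r) := fun r => (ht r (f r)).1 (hf2 r)
    have hsurj : ∀ y ∈ N₁, ∃ r, f r = y := by
      have himg : Finset.univ.image f = N₁ := by
        apply Finset.eq_of_subset_of_card_le
        · intro y hy
          obtain ⟨r, -, rfl⟩ := Finset.mem_image.1 hy
          exact (hf2' r).1
        · rw [Finset.card_image_of_injective _ hf1, Finset.card_univ, Fintype.card_coe,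
            hcardN₁, hcardR₁]
      intro y hy
      rw [← himg] at hy
      obtain ⟨r, -, hr⟩ := Finset.mem_image.1 hy
      exact ⟨r, hr⟩
    let τ : W → W := fun v => if v = a then c else if v = c then a else
      if hv : v ∈ R₁ then f ⟨v, hv⟩ else
        if hv : ∃ r : {r // r ∈ R₁}, f r = v then (hv.choose : W) else v
    have hca : c ≠ a := fun e => haN (e ▸ hc1)
    have τa : τ a = c := by simp only [τ, if_true]
    have τc : τ c = a := by simp only [τ, hca, if_false, if_true]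
    have τR : ∀ v (hv : v ∈ R₁), τ v = f ⟨v, hv⟩ := by
      intro v hv
      have h1 : v ≠ a := (hR₁R v hv).2
      have h2 : v ≠ c := fun e => (hR₁R v hv).1.2 (e ▸ hc1)
      simp only [τ, h1, h2, if_false, hv, dif_pos]
    have τN : ∀ v ∈ N₁, ∃ r : {r // r ∈ R₁}, f r = v ∧ τ v = r.1 := by
      intro v hv
      have h1 : v ≠ a := fun e => haN (e ▸ (hN₁N v hv).1)
      have h2 : v ≠ c := (hN₁N v hv).2
      have h3 : v ∉ R₁ := fun hmem => (hR₁R v hmem).1.2 (hN₁N v hv).1
      have h4 : ∃ r : {r // r ∈ R₁}, f r = v := hsurj v hv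
      refine ⟨h4.choose, h4.choose_spec, ?_⟩
      simp only [τ, h1, h2, if_false, h3, dif_neg, not_false_iff, h4, dif_pos]
    have hS : ∀ v, v ∈ insert a (insert c (R₁ ∪ N₁)) ↔ v = a ∨ v = c ∨ v ∈ R₁ ∨ v ∈ N₁ := by
      intro v
      simp only [Finset.mem_insert, Finset.mem_union]
    refine h.no_improve_gen hmin (insert a (insert c (R₁ ∪ N₁))) τ ?_ ?_ ?_ ?_ ?_ ?_ a
      (Finset.mem_insert_self _ _) ha
    · intro v hv
      rw [hS] at hv ⊢
      rcases hv with rfl | rfl | hv | hv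
      · exact Or.inr (Or.inr (Or.inl hbR₁))
      · exact Or.inr (Or.inr (Or.inr hdN₁))
      · rcases hR₁cases v hv with rfl | hv'
        · exact Or.inl hσb
        · exact Or.inr (Or.inr (Or.inr (hR'N₁ v hv')))
      · rcases hN₁cases v hv with rfl | ⟨r, hr, rfl⟩
        · exact Or.inr (Or.inl hσd)
        · rw [h.1.invol]
          exact Or.inr (Or.inr (Or.inl (hR'R₁ r hr)))
    · intro v hv
      rw [hS] at hv ⊢
      rcases hv with rfl | rfl | hv | hv
      · rw [τa]; exact Or.inr (Or.inl rfl)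
      · rw [τc]; exact Or.inl rfl
      · rw [τR v hv]; exact Or.inr (Or.inr (Or.inr (hf2' _).1))
      · obtain ⟨r, -, hr2⟩ := τN v hv
        rw [hr2]; exact Or.inr (Or.inr (Or.inl r.2))
    · intro v hv
      rw [hS] at hv
      rcases hv with rfl | rfl | hv | hv
      · rw [τa, τc]
      · rw [τc, τa]
      · rw [τR v hv]
        obtain ⟨r, hr1, hr2⟩ := τN (f ⟨v, hv⟩) (hf2' _).1
        rw [hr2]
        have := hf1 hr1
        rw [this]
      · obtain ⟨r, hr1, hr2⟩ := τN v hv
        rw [hr2, τR r.1 r.2]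
        exact hr1
    · intro v hv
      rw [hS] at hv
      rcases hv with rfl | rfl | hv | hv
      · rw [τa]; exact hac
      · rw [τc]; exact hac.symm
      · rw [τR v hv]; exact (hf2' ⟨v, hv⟩).2
      · obtain ⟨r, hr1, hr2⟩ := τN v hv
        rw [hr2]
        have := (hf2' r).2
        rw [hr1] at this
        exact this.symm
    · rw [hS]
      rintro (e | e | e | e)
      · exact haq e.symm
      · exact hcq e.symm
      · exact (hR₁R q e).1.1 rfl
      · exact G.loopless.irrefl _ (hN₁N q e).1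
    · intro v hv
      rw [hS] at hv
      rcases hv with rfl | rfl | hv | hv
      · right; rw [τa]; exact hc1
      · left; exact hc1
      · right; rw [τR v hv]; exact (hN₁N _ (hf2' ⟨v, hv⟩).1).1
      · left; exact (hN₁N v hv).1
  · push Not at hH
    obtain ⟨s, hs⟩ := hH
    obtain ⟨J₀, hJ₀⟩ : ∃ J₀ : Finset W, J₀ = s.image Subtype.val := ⟨_, rfl⟩
    have hJ₀card : J₀.card = s.card := by
      rw [hJ₀]; exact Finset.card_image_of_injective _ Subtype.val_injective
    have hJ₀mem : ∀ r ∈ J₀, ∃ r' ∈ s, (r' : W) = r := by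
      intro r hr
      rw [hJ₀] at hr
      exact Finset.mem_image.1 hr
    have hJ₀R₁ : ∀ r ∈ J₀, r ∈ R₁ := by
      intro r hr
      obtain ⟨r', -, rfl⟩ := hJ₀mem r hr
      exact r'.2
    have hJ'R' : ∀ r ∈ J₀.erase (σ a), r ∈ R' := by
      intro r hr
      rw [Finset.mem_erase] at hr
      exact (hR₁cases r (hJ₀R₁ r hr.2)).resolve_left hr.1
    have hsub : (J₀.erase (σ a)).image σ ⊆ s.biUnion t := by
      intro y hy
      obtain ⟨r, hr, rfl⟩ := Finset.mem_image.1 hy
      have hrR' := hJ'R' r hr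
      obtain ⟨r', hr's, hr'⟩ := hJ₀mem r (Finset.mem_erase.1 hr).2
      rw [Finset.mem_biUnion]
      refine ⟨r', hr's, ?_⟩
      rw [ht, hr']
      exact ⟨hR'N₁ r hrR', h.adj ((memR' r).1 hrR').1.1⟩
    have hcardJ' : ((J₀.erase (σ a)).image σ).card = (J₀.erase (σ a)).card :=
      Finset.card_image_of_injective _ h.1.injective
    have hle := Finset.card_le_card hsub
    have hbJ₀ : σ a ∈ J₀ := by
      by_contra hnb
      rw [Finset.erase_eq_of_notMem hnb] at hcardJ' hle
      omega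
    have hJ'card : (J₀.erase (σ a)).card = J₀.card - 1 := Finset.card_erase_of_mem hbJ₀
    have hEq : (J₀.erase (σ a)).image σ = s.biUnion t :=
      Finset.eq_of_subset_of_card_le hsub (by omega)
    obtain ⟨b', hb's, hb'⟩ := hJ₀mem _ hbJ₀
    have hdJ : ∀ r ∈ J₀, ¬G.Adj r (σ c) := by
      intro r hr hadj
      obtain ⟨r', hr's, hr'⟩ := hJ₀mem r hr
      have hmem : σ c ∈ s.biUnion t := by
        rw [Finset.mem_biUnion]
        refine ⟨r', hr's, ?_⟩
        rw [ht, hr']
        exact ⟨hdN₁, hadj⟩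
      rw [← hEq] at hmem
      obtain ⟨r₂, hr₂, hr₂d⟩ := Finset.mem_image.1 hmem
      have hr₂c : r₂ = c := h.1.injective hr₂d
      rw [hr₂c] at hr₂
      exact ((memR' _).1 (hJ'R' _ hr₂)).1.2 hc1
    have hindep : ∀ r ∈ J₀, ∀ r' ∈ J₀, ¬G.Adj r r' := by
      intro r hr r' hr' hadj
      have hrR := (hR₁R r (hJ₀R₁ r hr)).1
      have hr'R := (hR₁R r' (hJ₀R₁ r' hr')).1
      rcases h2K2 q (σ c) r r' hc2 hadj (Ne.symm hrR.1) (Ne.symm hr'R.1)
        (fun e => hrR.2 (e ▸ hc2)) (fun e => hr'R.2 (e ▸ hc2)) with h1 | h1 | h1 | h1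
      · exact hrR.2 h1
      · exact hr'R.2 h1
      · exact hdJ r hr h1.symm
      · exact hdJ r' hr' h1.symm
    have hNb : G.neighborFinset (σ a) ⊆
        ((Finset.univ.filter (InR G q)) \ J₀) ∪ (J₀.erase (σ a)).image σ := by
      intro z hz
      rw [SimpleGraph.mem_neighborFinset] at hz
      have hzq : z ≠ q := by
        rintro rfl
        exact hbN hz.symm
      by_cases hqz : G.Adj q z
      · by_cases hqσz : G.Adj q (σ z)
        · exact absurd hz (hall z hqz hqσz)
        · have hσzR' : σ z ∈ R' :=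
            (memR' _).2 ⟨⟨h.ne_q hzq, hqσz⟩, by rw [h.1.invol]; exact hqz⟩
          have hzN₁ : z ∈ N₁ := by
            have := hR'N₁ _ hσzR'
            rwa [h.1.invol] at this
          have hmem : z ∈ s.biUnion t := by
            rw [Finset.mem_biUnion]
            refine ⟨b', hb's, ?_⟩
            rw [ht, hb']
            exact ⟨hzN₁, hz⟩
          rw [← hEq] at hmem
          exact Finset.mem_union_right _ hmem
      · refine Finset.mem_union_left _ ?_
        rw [Finset.mem_sdiff, Finset.mem_filter]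
        exact ⟨⟨Finset.mem_univ _, hzq, hqz⟩, fun hzJ => hindep _ hbJ₀ z hzJ hz⟩
    have hJ₀R : J₀ ⊆ Finset.univ.filter (InR G q) := by
      intro r hr
      rw [Finset.mem_filter]
      exact ⟨Finset.mem_univ _, (hR₁R r (hJ₀R₁ r hr)).1⟩
    have c1 := Finset.card_le_card hNb
    have c2 := Finset.card_union_le ((Finset.univ.filter (InR G q)) \ J₀)
      ((J₀.erase (σ a)).image σ)
    have c3 := Finset.card_sdiff_of_subset hJ₀R
    have c4 := Finset.card_le_card hJ₀R
    have c5 := hδ (σ a)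
    have c6 : 0 < J₀.card := Finset.card_pos.2 ⟨_, hbJ₀⟩
    omega

/-- With exactly `2k+1` vertices, minimum degree at least `k` and no nested non-adjacent pair,
a `2K_2`-free graph has a `K_{k+1}` minor formed by a vertex and `k` edges. -/
theorem pminor_of_odd (h2K2 : TwoK2Free G) {k : ℕ}
    (hδ : ∀ x, k ≤ (G.neighborFinset x).card)
    (hnest : ∀ u v, u ≠ v → ¬G.Adj u v → ∃ z, G.Adj u z ∧ ¬G.Adj v z)
    (hn : Fintype.card W = 2 * k + 1) : PMinor G (k + 1) := by
  have hpos : 0 < Fintype.card W := by omega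
  obtain ⟨q⟩ := Fintype.card_pos_iff.1 hpos
  obtain ⟨σ₀, hσ₀⟩ := exists_perfect_avoid h2K2 hδ hnest hn q
  have hσ₀' : PerfQ G q σ₀ := hσ₀
  obtain ⟨σ, hσmem, hσmin⟩ := Finset.exists_min_image
    (Finset.univ.filter (fun σ : W → W => PerfQ G q σ)) (fun σ => (bad G q σ).card)
    ⟨σ₀, by simp [hσ₀']⟩
  simp only [Finset.mem_filter, Finset.mem_univ, true_and] at hσmem hσmin
  have hbad : bad G q σ = ∅ := by
    by_contra hne
    obtain ⟨a, ha⟩ := Finset.nonempty_iff_ne_empty.2 hne
    rcases hσmem.all_point h2K2 hσmin ha with h1 | h1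
    · exact hσmem.final h2K2 hδ hn hσmin ha h1
    · exact hσmem.final h2K2 hδ hn hσmin (hσmem.partner_bad ha)
        (by rw [hσmem.1.invol]; exact h1)
  obtain ⟨L, hL1, hL2, hL3⟩ := hσmem.1.exists_half
  have hmoved : (moved σ).card = 2 * k := by
    have hsum := fixes_add_moved σ
    have hfix : fixes σ = {q} := by
      ext v
      simp only [fixes, Finset.mem_filter, Finset.mem_univ, true_and, Finset.mem_singleton]
      exact ⟨hσmem.2 v, fun e => e ▸ hσmem.fix⟩
    rw [hfix, Finset.card_singleton] at hsum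
    omega
  have hLk : L.card = k := by omega
  refine ⟨(q, q) :: L.toList.map (fun v => (v, σ v)), by simp [hLk], ?_, ?_⟩
  · intro e he
    rcases List.mem_cons.1 he with rfl | he
    · exact Or.inl rfl
    · obtain ⟨v, hv, rfl⟩ := List.mem_map.1 he
      right
      have : v ∈ moved σ := hL3 (Finset.mem_toList.1 hv)
      exact hσmem.1.adj_of_ne (by simpa [moved] using this)
  · rw [List.pairwise_cons]
    refine ⟨?_, pairs_pairwise h2K2 hσmem.1 L hL2 hL3⟩
    intro e he
    obtain ⟨v, hv, rfl⟩ := List.mem_map.1 he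
    have hvm : σ v ≠ v := by simpa [moved] using hL3 (Finset.mem_toList.1 hv)
    have hvq : v ≠ q := fun e => hvm (e ▸ hσmem.fix)
    have hσvq : σ v ≠ q := hσmem.ne_q hvq
    have hgood : G.Adj q v ∨ G.Adj q (σ v) := by
      by_contra hno
      push Not at hno
      have hmem : v ∈ bad G q σ := mem_bad.2 ⟨⟨hvq, hno.1⟩, ⟨hσvq, hno.2⟩⟩
      rw [hbad] at hmem
      exact absurd hmem (Finset.notMem_empty _)
    refine ⟨Ne.symm hvq, Ne.symm hσvq, Ne.symm hvq, Ne.symm hσvq, ?_⟩
    rcases hgood with hg | hg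
    · exact Or.inl hg
    · exact Or.inr (Or.inl hg)

end Vale.Agent.Lib.P060
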