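import Vale.Agent.Lib.P060.TwoK2.Basic

namespace Vale.Agent.Lib.P060

open Classical

universe u

variable {W : Type u} [Fintype W] (G : SimpleGraph W)

/-- Number of ordered pairs of vertices that are classmates in both colourings. -/
noncomputable def agree {α β : Type*} (ψ : W → α) (c : W → β) : ℕ :=
  (Finset.univ.filter (fun p : W × W => ψ p.1 = ψ p.2 ∧ c p.1 = c p.2)).card

/-- Number of singleton colour classes. -/
noncomputable def singCount {α : Type*} (c : W → α) : ℕ := (Finset.univ.filter (Sing c)).card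

theorem exchange {k : ℕ} (hk : ¬G.Colorable k) (ψ c' : W → Fin (k + 1)) (hψ : Proper G ψ)
    (hc' : Proper G c') (w : W) (hw : Sing c' w)
    (hmax : ∀ c'' : W → Fin (k + 1), Proper G c'' → Sing c'' w → agree ψ c'' ≤ agree ψ c')
    (y : W) (hy : Sing c' y) (hyw : y ≠ w) : Sing ψ y := by
  by_contra hns
  unfold Sing at hns
  push Not at hns
  obtain ⟨y', hy'1, hy'2⟩ := hns
  have hy'w : y' ≠ w := by
    rintro rfl
    have hadj : G.Adj y' y := sing_adj G hk c' hc' y' y (Ne.symm hyw) hw hy
    exact hψ y' y hadj hy'1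
  set c'' : W → Fin (k + 1) := fun x => if c' x = c' y' ∧ ψ x = ψ y then c' y else c' x
    with hc''
  have hD : ∀ x, (c' x = c' y' ∧ ψ x = ψ y) → c'' x = c' y := fun x hx => by
    simp only [hc'']; rw [if_pos hx]
  have hnD : ∀ x, ¬(c' x = c' y' ∧ ψ x = ψ y) → c'' x = c' x := fun x hx => by
    simp only [hc'']; rw [if_neg hx]
  have hyD : ¬(c' y = c' y' ∧ ψ y = ψ y) := by
    rintro ⟨h, -⟩
    exact hy'2 (hy y' h.symm)
  have hwD : ¬(c' w = c' y' ∧ ψ w = ψ y) := by
    rintro ⟨h, -⟩
    exact hy'w (hw y' h.symm)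
  have hprop : Proper G c'' := by
    intro a b hab
    by_cases ha : (c' a = c' y' ∧ ψ a = ψ y) <;> by_cases hb : (c' b = c' y' ∧ ψ b = ψ y)
    · exfalso
      exact hψ a b hab (ha.2.trans hb.2.symm)
    · rw [hD a ha, hnD b hb]
      intro h
      have : b = y := hy b h.symm
      subst this
      exact hψ a b hab ha.2
    · rw [hnD a ha, hD b hb]
      intro h
      have : a = y := hy a h
      subst this
      exact hψ a b hab hb.2.symm
    · rw [hnD a ha, hnD b hb]
      exact hc' a b hab
  have hsing : Sing c'' w := by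
    intro z hz
    rw [hnD w hwD] at hz
    by_cases hzD : (c' z = c' y' ∧ ψ z = ψ y)
    · rw [hD z hzD] at hz
      exact absurd (hw y hz) hyw
    · rw [hnD z hzD] at hz
      exact hw z hz
  have hlt : agree ψ c' < agree ψ c'' := by
    unfold agree
    apply Finset.card_lt_card
    rw [Finset.ssubset_iff_of_subset]
    · refine ⟨(y', y), ?_, ?_⟩
      · simp only [Finset.mem_filter, Finset.mem_univ, true_and]
        refine ⟨hy'1, ?_⟩
        rw [hD y' ⟨rfl, hy'1⟩, hnD y hyD]
      · simp only [Finset.mem_filter, Finset.mem_univ, true_and, not_and]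
        intro _ h
        exact hy'2 (hy y' h)
    · intro p hp
      simp only [Finset.mem_filter, Finset.mem_univ, true_and] at hp ⊢
      refine ⟨hp.1, ?_⟩
      by_cases h1 : (c' p.1 = c' y' ∧ ψ p.1 = ψ y)
      · have h2 : (c' p.2 = c' y' ∧ ψ p.2 = ψ y) := ⟨hp.2.symm.trans h1.1, hp.1.symm.trans h1.2⟩
        rw [hD _ h1, hD _ h2]
      · have h2 : ¬(c' p.2 = c' y' ∧ ψ p.2 = ψ y) := by
          rintro ⟨h3, h4⟩
          exact h1 ⟨hp.2.trans h3, hp.1.trans h4⟩
        rw [hnD _ h1, hnD _ h2]
        exact hp.2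
  exact absurd (hmax c'' hprop hsing) (not_le.2 hlt)

/-- Gallai-type lemma: a vertex-critical graph all of whose optimal colourings have at least
two singleton classes is the join of two nonempty parts. -/
theorem gallai_join {k : ℕ} (hk : ¬G.Colorable k)
    (hcrit : ∀ x, ∃ c : W → Fin k, ∀ a b, a ≠ x → b ≠ x → G.Adj a b → c a ≠ c b)
    (h2 : ∀ c : W → Fin (k + 1), Proper G c → 2 ≤ singCount c) :
    ∃ P : Set W, P.Nonempty ∧ Pᶜ.Nonempty ∧ ∀ x ∈ P, ∀ z, z ∉ P → G.Adj x z := by
  have hne : Nonempty W := by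
    by_contra hemp
    rw [not_nonempty_iff] at hemp
    exact hk (colorable_of_proper G (fun x => isEmptyElim x) (fun a => isEmptyElim a))
  obtain ⟨x₀⟩ := hne
  obtain ⟨c₀, hc₀, -⟩ := exists_proper_sing G x₀ (hcrit x₀)
  have hex : ∃ m, ∃ c : W → Fin (k + 1), Proper G c ∧ singCount c = m := ⟨_, c₀, hc₀, rfl⟩
  obtain ⟨ψ₀, hψ₀, hm⟩ := Nat.find_spec hex
  have hmin : ∀ c : W → Fin (k + 1), Proper G c → Nat.find hex ≤ singCount c := by
    intro c hc
    exact Nat.find_min' hex ⟨c, hc, rfl⟩
  generalize Nat.find hex = m at hm hmin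
  have hm2 : 2 ≤ m := hm ▸ h2 ψ₀ hψ₀
  have hcard : 1 < (Finset.univ.filter (Sing ψ₀)).card := by
    have : singCount ψ₀ = m := hm
    unfold singCount at this
    omega
  obtain ⟨v, hv, u₀, hu₀, hvu⟩ := Finset.one_lt_card.1 hcard
  simp only [Finset.mem_filter, Finset.mem_univ, true_and] at hv hu₀
  refine ⟨{u | u ≠ v ∧ ∃ ψ : W → Fin (k + 1), Proper G ψ ∧ singCount ψ = m ∧ Sing ψ u ∧
    Sing ψ v}, ⟨u₀, Ne.symm hvu, ψ₀, hψ₀, hm, hu₀, hv⟩, ⟨v, fun h => h.1 rfl⟩, ?_⟩
  rintro u ⟨huv, ψ, hψ, hψm, hψu, hψv⟩ z hz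
  by_contra hadj
  apply hz
  have hzu : z ≠ u := by
    rintro rfl
    exact hz ⟨huv, ψ, hψ, hψm, hψu, hψv⟩
  have hzψ : ¬Sing ψ z := fun h => hadj (sing_adj G hk ψ hψ u z (Ne.symm hzu) hψu h)
  have hzv : z ≠ v := by
    rintro rfl
    exact hzψ hψv
  obtain ⟨cz, hcz1, hcz2⟩ := exists_proper_sing G z (hcrit z)
  obtain ⟨c', hc'mem, hc'max⟩ := Finset.exists_max_image
    (Finset.univ.filter (fun c : W → Fin (k + 1) => Proper G c ∧ Sing c z)) (agree ψ)
    ⟨cz, by simp [hcz1, hcz2]⟩
  simp only [Finset.mem_filter, Finset.mem_univ, true_and] at hc'mem hc'max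
  obtain ⟨hc'1, hc'2⟩ := hc'mem
  have hex' : ∀ y, Sing c' y → y ≠ z → Sing ψ y := fun y hy hyz =>
    exchange G hk ψ c' hψ hc'1 z hc'2 (fun c'' h1 h2 => hc'max c'' ⟨h1, h2⟩) y hy hyz
  have hu' : ¬Sing c' u := fun h => hadj (sing_adj G hk c' hc'1 u z (Ne.symm hzu) h hc'2)
  have hsub : Finset.univ.filter (Sing c') ⊆
      insert z ((Finset.univ.filter (Sing ψ)).erase u) := by
    intro y hy
    simp only [Finset.mem_filter, Finset.mem_univ, true_and] at hy
    by_cases hyz : y = z
    · simp [hyz]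
    · rw [Finset.mem_insert, Finset.mem_erase]
      right
      refine ⟨?_, by simpa using hex' y hy hyz⟩
      rintro rfl
      exact hu' hy
  have hcard1 : (insert z ((Finset.univ.filter (Sing ψ)).erase u)).card ≤ m := by
    have h1 := Finset.card_insert_le z ((Finset.univ.filter (Sing ψ)).erase u)
    have h2 : ((Finset.univ.filter (Sing ψ)).erase u).card =
        (Finset.univ.filter (Sing ψ)).card - 1 :=
      Finset.card_erase_of_mem (by simpa using hψu)
    have h3 : (Finset.univ.filter (Sing ψ)).card = m := hψm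
    omega
  have hcard2 : m ≤ (Finset.univ.filter (Sing c')).card := hmin c' hc'1
  have heq : Finset.univ.filter (Sing c') = insert z ((Finset.univ.filter (Sing ψ)).erase u) :=
    Finset.eq_of_subset_of_card_le hsub (hcard1.trans hcard2)
  have hc'm : singCount c' = m := by
    unfold singCount
    have := Finset.card_le_card hsub
    omega
  have hv' : Sing c' v := by
    have : v ∈ Finset.univ.filter (Sing c') := by
      rw [heq, Finset.mem_insert, Finset.mem_erase]
      right
      exact ⟨Ne.symm huv, by simpa using hψv⟩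
    simpa using this
  exact ⟨hzv, c', hc'1, hc'm, hc'2, hv'⟩

/-- With at most `2k` vertices, every proper `(k+1)`-colouring of a graph that is not
`k`-colourable has at least two singleton classes. -/
theorem two_sing_of_card_le {k : ℕ} (hk : ¬G.Colorable k) (hcard : Fintype.card W ≤ 2 * k)
    (c : W → Fin (k + 1)) (hc : Proper G c) : 2 ≤ singCount c := by
  have hsurj : ∀ j, ∃ a, c a = j := by
    intro j
    by_contra h
    push Not at h
    exact hk (colorable_of_missing G c hc j h)
  have h1 : Fintype.card W =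
      ∑ j : Fin (k + 1), (Finset.univ.filter (fun a => c a = j)).card := by
    rw [← Finset.card_univ]
    exact Finset.card_eq_sum_card_fiberwise (fun x _ => Finset.mem_univ _)
  have h2 : singCount c = ∑ j : Fin (k + 1),
      ((Finset.univ.filter (Sing c)).filter (fun a => c a = j)).card := by
    unfold singCount
    exact Finset.card_eq_sum_card_fiberwise (fun x _ => Finset.mem_univ _)
  have h3 : ∀ j : Fin (k + 1), 2 ≤ (Finset.univ.filter (fun a => c a = j)).card +
      ((Finset.univ.filter (Sing c)).filter (fun a => c a = j)).card := by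
    intro j
    obtain ⟨a, ha⟩ := hsurj j
    by_cases hs : Sing c a
    · have m1 : a ∈ Finset.univ.filter (fun a => c a = j) := by simp [ha]
      have m2 : a ∈ (Finset.univ.filter (Sing c)).filter (fun a => c a = j) := by simp [ha, hs]
      have := Finset.card_pos.2 ⟨a, m1⟩
      have := Finset.card_pos.2 ⟨a, m2⟩
      omega
    · unfold Sing at hs
      push Not at hs
      obtain ⟨b, hb1, hb2⟩ := hs
      have : 1 < (Finset.univ.filter (fun a => c a = j)).card := by
        rw [Finset.one_lt_card]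
        exact ⟨a, by simp [ha], b, by simp [hb1, ha], Ne.symm hb2⟩
      omega
  have h4 : ∑ _j : Fin (k + 1), 2 ≤ ∑ j : Fin (k + 1),
      ((Finset.univ.filter (fun a => c a = j)).card +
        ((Finset.univ.filter (Sing c)).filter (fun a => c a = j)).card) :=
    Finset.sum_le_sum (fun j _ => h3 j)
  rw [Finset.sum_add_distrib, ← h1, ← h2] at h4
  simp only [Finset.sum_const, Finset.card_univ, Fintype.card_fin, smul_eq_mul] at h4
  omega

end Vale.Agent.Lib.P060
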