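import Vale.Agent.Lib.P060.TwoK2.Final
import Vale.Agent.Lib.P060.TwoK2.Gallai

namespace Vale.Agent.Lib.P060

open Classical

universe u

/-- A vertex-critical `2K_2`-free graph of chromatic number `k+1` with at least `2k+1` vertices
has a `K_{k+1}` minor with branch sets of size at most two. -/
theorem pminor_of_crit {W : Type u} [Fintype W] {G : SimpleGraph W} (h2K2 : TwoK2Free G)
    {k : ℕ} (hk : ¬G.Colorable k)
    (hcrit : ∀ x, ∃ c : W → Fin k, ∀ a b, a ≠ x → b ≠ x → G.Adj a b → c a ≠ c b)
    (hn : 2 * k + 1 ≤ Fintype.card W) : PMinor G (k + 1) := by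
  have hδ := crit_degree G hk hcrit
  have hnest := crit_nested G hk hcrit
  rcases Nat.lt_or_ge (2 * k + 1) (Fintype.card W) with h | h
  · obtain ⟨σ, hσ, hm⟩ := exists_match_of_card h2K2 hδ hnest (by omega)
    exact pminor_of_match h2K2 hσ (by omega)
  · exact pminor_of_odd h2K2 hδ hnest (by omega)

theorem main_aux : ∀ (n : ℕ) (W : Type u) [Fintype W] (G : SimpleGraph W),
    Fintype.card W = n → TwoK2Free G → ∀ k, ¬G.Colorable k → PMinor G (k + 1) := by
  intro n
  induction n using Nat.strong_induction_on with
  | _ n ih =>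
    intro W _ G hcard h2K2 k hk
    have hne : Nonempty W := by
      by_contra hemp
      rw [not_nonempty_iff] at hemp
      exact hk (colorable_of_proper G (fun x => isEmptyElim x) (fun a => isEmptyElim a))
    by_cases hA : ∃ x, ¬(G.induce ({x}ᶜ : Set W)).Colorable k
    · obtain ⟨x, hx⟩ := hA
      have hlt : Fintype.card ({x}ᶜ : Set W) < n := by
        rw [← hcard]
        exact Fintype.card_subtype_lt (p := fun y => y ∈ ({x}ᶜ : Set W)) (x := x) (by simp)
      exact PMinor.of_induce G _ (ih _ hlt _ _ rfl (h2K2.induce G _) k hx)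
    · push Not at hA
      rcases Nat.eq_zero_or_pos k with rfl | hkpos
      · obtain ⟨x⟩ := hne
        exact ⟨[(x, x)], rfl, by simp, by simp⟩
      have hcrit : ∀ x, ∃ c : W → Fin k, ∀ a b, a ≠ x → b ≠ x → G.Adj a b → c a ≠ c b :=
        fun x => crit_fn G hkpos x (hA x)
      rcases Nat.lt_or_ge (2 * k) (Fintype.card W) with hbig | hsmall
      · exact pminor_of_crit h2K2 hk hcrit (by omega)
      · obtain ⟨P, hP1, hP2, hP3⟩ := gallai_join G hk hcrit
          (fun c hc => two_sing_of_card_le G hk hsmall c hc)
        have key : ∀ s : Set W, sᶜ.Nonempty →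
            ∃ t, (G.induce s).Colorable t ∧ PMinor (G.induce s) t := by
          intro s hsc
          have hex : ∃ t, (G.induce s).Colorable t := ⟨_, SimpleGraph.colorable_of_fintype _⟩
          have hfind := Nat.find_spec hex
          have hminimal : ∀ t', t' < Nat.find hex → ¬(G.induce s).Colorable t' :=
            fun t' ht' => Nat.find_min hex ht'
          generalize Nat.find hex = t at hfind hminimal
          refine ⟨t, hfind, ?_⟩
          rcases Nat.eq_zero_or_pos t with rfl | htpos
          · exact ⟨[], rfl, by simp, List.Pairwise.nil⟩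
          · have hlt : Fintype.card s < n := by
              rw [← hcard]
              obtain ⟨z, hz⟩ := hsc
              exact Fintype.card_subtype_lt (p := fun y => y ∈ s) (x := z) hz
            obtain ⟨t', rfl⟩ : ∃ t', t = t' + 1 := ⟨t - 1, by omega⟩
            exact ih _ hlt _ _ rfl (h2K2.induce G s) t' (hminimal t' (by omega))
        obtain ⟨t₁, hc₁, hm₁⟩ := key P hP2
        obtain ⟨t₂, hc₂, hm₂⟩ := key Pᶜ (by rwa [compl_compl])
        have hcol := colorable_join G P hc₁ hc₂
        have hge : k + 1 ≤ t₁ + t₂ := by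
          by_contra hlt
          exact hk (hcol.mono (by omega))
        exact PMinor.mono G hge (PMinor.join G P hP3 hm₁ hm₂)

/-- Hadwiger's conjecture for `2K_2`-free graphs. -/
theorem hadwiger_twoK2Free {V : Type u} [Finite V] (G : SimpleGraph V) (h : TwoK2Free G)
    (t : ℕ) (ht : ¬HasCliqueMinor G (t + 1)) : G.Colorable t := by
  cases nonempty_fintype V
  by_contra hcol
  exact ht (PMinor.hasCliqueMinor G (main_aux _ V G rfl h t hcol))

end Vale.Agent.Lib.P060
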