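import Vale.Agent.Lib.P060.TwoK2.Basic

namespace Vale.Agent.Lib.P060

open Classical

universe u

variable {W : Type u} (G : SimpleGraph W)

/-- A matching of `G` avoiding the set `X`, encoded as an involution `σ` of the vertex set:
`v` is matched to `σ v` when `σ v ≠ v`, and unmatched when `σ v = v`. -/
structure IsMatch (X : Finset W) (σ : W → W) : Prop where
  invol : ∀ v, σ (σ v) = v
  adj : ∀ v, σ v = v ∨ G.Adj v (σ v)
  avoid : ∀ x ∈ X, σ x = x

variable {G}

theorem IsMatch.injective {X : Finset W} {σ : W → W} (h : IsMatch G X σ) :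
    Function.Injective σ := fun a b hab => by
  have := congrArg σ hab
  rwa [h.invol, h.invol] at this

theorem IsMatch.notMem_of_ne {X : Finset W} {σ : W → W} (h : IsMatch G X σ) {v : W}
    (hv : σ v ≠ v) : v ∉ X :=
  fun hx => hv (h.avoid v hx)

theorem IsMatch.adj_of_ne {X : Finset W} {σ : W → W} (h : IsMatch G X σ) {v : W}
    (hv : σ v ≠ v) : G.Adj v (σ v) :=
  (h.adj v).resolve_left hv

theorem IsMatch.partner_ne {X : Finset W} {σ : W → W} (h : IsMatch G X σ) {v : W}
    (hv : σ v ≠ v) : σ (σ v) ≠ σ v := by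
  rw [h.invol]; exact fun e => hv e.symm

theorem ne_of_fix_of_moved {σ : W → W} {a b : W} (ha : σ a = a) (hb : σ b ≠ b) : a ≠ b :=
  fun e => hb (e ▸ ha)

/-- General rewiring of a matching on a `σ`-closed set `S`. -/
theorem IsMatch.rewire {X : Finset W} {σ : W → W} (h : IsMatch G X σ) (S : Finset W)
    (τ : W → W) (hσS : ∀ v ∈ S, σ v ∈ S) (hτS : ∀ v ∈ S, τ v ∈ S)
    (hτ2 : ∀ v ∈ S, τ (τ v) = v) (hτadj : ∀ v ∈ S, G.Adj v (τ v)) (hSX : ∀ v ∈ S, v ∉ X) :
    IsMatch G X (fun v => if v ∈ S then τ v else σ v) := by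
  refine ⟨?_, ?_, ?_⟩
  · intro v
    by_cases hv : v ∈ S
    · simp only [hv, if_true, hτS v hv, hτ2 v hv]
    · have hσv : σ v ∉ S := fun hs => hv (by have := hσS _ hs; rwa [h.invol] at this)
      simp only [hv, if_false, hσv, h.invol]
  · intro v
    by_cases hv : v ∈ S
    · simp only [hv, if_true]
      exact Or.inr (hτadj v hv)
    · simp only [hv, if_false]
      exact h.adj v
  · intro x hx
    have : x ∉ S := fun hs => hSX x hs hx
    simp only [this, if_false]
    exact h.avoid x hx

/-- The pairing function of a list of pairs. -/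
noncomputable def pairFn : List (W × W) → W → W
  | [], v => v
  | (a, b) :: l, v => if v = a then b else if v = b then a else pairFn l v

/-- The list of all entries of a list of pairs. -/
def entries : List (W × W) → List W
  | [] => []
  | (a, b) :: l => a :: b :: entries l

theorem mem_entries_of_mem : ∀ (ps : List (W × W)) (p : W × W), p ∈ ps →
    p.1 ∈ entries ps ∧ p.2 ∈ entries ps
  | [], p, hp => by simp at hp
  | (a, b) :: l, p, hp => by
    rcases List.mem_cons.1 hp with rfl | hp
    · simp [entries]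
    · have := mem_entries_of_mem l p hp
      simp [entries, this.1, this.2]

theorem exists_of_mem_entries : ∀ (ps : List (W × W)) (v : W), v ∈ entries ps →
    ∃ p ∈ ps, v = p.1 ∨ v = p.2
  | [], v, hv => by simp [entries] at hv
  | (a, b) :: l, v, hv => by
    simp only [entries, List.mem_cons] at hv
    rcases hv with rfl | rfl | hv
    · exact ⟨(v, b), by simp, Or.inl rfl⟩
    · exact ⟨(a, v), by simp, Or.inr rfl⟩
    · obtain ⟨p, hp, hp'⟩ := exists_of_mem_entries l v hv
      exact ⟨p, List.mem_cons_of_mem _ hp, hp'⟩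

theorem pairFn_spec : ∀ (ps : List (W × W)), (entries ps).Nodup → ∀ p ∈ ps,
    pairFn ps p.1 = p.2 ∧ pairFn ps p.2 = p.1
  | [], _, p, hp => by simp at hp
  | (a, b) :: l, hnd, p, hp => by
    simp only [entries, List.nodup_cons, List.mem_cons, not_or] at hnd
    obtain ⟨⟨hab, hal⟩, hbl, hl⟩ := hnd
    rcases List.mem_cons.1 hp with rfl | hp
    · refine ⟨by simp [pairFn], ?_⟩
      simp only [pairFn]
      rw [if_neg (Ne.symm hab)]
      simp
    · have hm := mem_entries_of_mem l p hp
      have ih := pairFn_spec l hl p hp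
      have e1 : p.1 ≠ a := fun e => hal (e ▸ hm.1)
      have e2 : p.1 ≠ b := fun e => hbl (e ▸ hm.1)
      have e3 : p.2 ≠ a := fun e => hal (e ▸ hm.2)
      have e4 : p.2 ≠ b := fun e => hbl (e ▸ hm.2)
      simp only [pairFn]
      rw [if_neg e1, if_neg e2, if_neg e3, if_neg e4]
      exact ih

/-- Rewiring a matching along an explicit list of new pairs whose entries form a `σ`-closed
set. -/
theorem IsMatch.rewireList {X : Finset W} {σ : W → W} (h : IsMatch G X σ) (ps : List (W × W))
    (hnd : (entries ps).Nodup) (hadj : ∀ p ∈ ps, G.Adj p.1 p.2)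
    (hX : ∀ v ∈ entries ps, v ∉ X) (hcl : ∀ v ∈ entries ps, σ v ∈ entries ps) :
    ∃ σ', IsMatch G X σ' ∧ (∀ p ∈ ps, σ' p.1 = p.2 ∧ σ' p.2 = p.1) ∧
      (∀ v, v ∉ entries ps → σ' v = σ v) ∧ (∀ v ∈ entries ps, σ' v ≠ v) := by
  have hτ : ∀ v ∈ (entries ps).toFinset, pairFn ps v ∈ (entries ps).toFinset ∧
      pairFn ps (pairFn ps v) = v ∧ G.Adj v (pairFn ps v) := by
    intro v hv
    rw [List.mem_toFinset] at hv
    obtain ⟨p, hp, hvp⟩ := exists_of_mem_entries ps v hv
    have hs := pairFn_spec ps hnd p hp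
    have hm := mem_entries_of_mem ps p hp
    rcases hvp with rfl | rfl
    · rw [hs.1, hs.2]
      exact ⟨List.mem_toFinset.2 hm.2, rfl, hadj p hp⟩
    · rw [hs.2, hs.1]
      exact ⟨List.mem_toFinset.2 hm.1, rfl, (hadj p hp).symm⟩
  have key := h.rewire (entries ps).toFinset (pairFn ps)
    (fun v hv => List.mem_toFinset.2 (hcl v (List.mem_toFinset.1 hv)))
    (fun v hv => (hτ v hv).1) (fun v hv => (hτ v hv).2.1) (fun v hv => (hτ v hv).2.2)
    (fun v hv => hX v (List.mem_toFinset.1 hv))
  refine ⟨_, key, ?_, ?_, ?_⟩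
  · intro p hp
    have hm := mem_entries_of_mem ps p hp
    have hs := pairFn_spec ps hnd p hp
    simp only [List.mem_toFinset, hm.1, hm.2, if_true]
    exact hs
  · intro v hv
    simp only [List.mem_toFinset, hv, if_false]
  · intro v hv
    simp only [List.mem_toFinset, hv, if_true]
    exact ((hτ v (List.mem_toFinset.2 hv)).2.2).ne'

section Counting

variable [Fintype W]

/-- The unmatched vertices. -/
noncomputable def fixes (σ : W → W) : Finset W := Finset.univ.filter (fun v => σ v = v)

/-- The matched vertices. -/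
noncomputable def moved (σ : W → W) : Finset W := Finset.univ.filter (fun v => σ v ≠ v)

theorem fixes_add_moved (σ : W → W) : (fixes σ).card + (moved σ).card = Fintype.card W := by
  unfold fixes moved
  rw [Finset.card_filter_add_card_filter_not, Finset.card_univ]

theorem IsMatch.exists_half {X : Finset W} {σ : W → W} (h : IsMatch G X σ) :
    ∃ L : Finset W, (moved σ).card = 2 * L.card ∧ (∀ v ∈ L, σ v ∉ L) ∧ L ⊆ moved σ := by
  let _ : LinearOrder W := LinearOrder.lift' (Fintype.equivFin W) (Fintype.equivFin W).injective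
  refine ⟨(moved σ).filter (fun v => v < σ v), ?_, ?_, Finset.filter_subset _ _⟩
  · have h1 : (moved σ).filter (fun v => ¬ v < σ v) =
        ((moved σ).filter (fun v => v < σ v)).image σ := by
      ext x
      simp only [Finset.mem_filter, Finset.mem_image, moved, Finset.mem_univ, true_and]
      constructor
      · rintro ⟨hx1, hx2⟩
        refine ⟨σ x, ⟨h.partner_ne hx1, ?_⟩, h.invol x⟩
        rw [h.invol]
        exact lt_of_le_of_ne (not_lt.1 hx2) hx1
      · rintro ⟨y, ⟨hy1, hy2⟩, rfl⟩
        refine ⟨h.partner_ne hy1, ?_⟩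
        rw [h.invol]
        exact not_lt.2 hy2.le
    have h2 := Finset.card_filter_add_card_filter_not (s := moved σ)
      (fun v => v < σ v)
    rw [h1, Finset.card_image_of_injective _ h.injective] at h2
    omega
  · intro v hv hv'
    simp only [Finset.mem_filter] at hv hv'
    rw [h.invol] at hv'
    exact lt_asymm hv.2 hv'.2

/-- A matching with at least `2t` matched vertices in a `2K_2`-free graph gives a `K_t` minor. -/
theorem pminor_of_match (h2K2 : TwoK2Free G) {X : Finset W} {σ : W → W} (h : IsMatch G X σ)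
    {t : ℕ} (ht : 2 * t ≤ (moved σ).card) : PMinor G t := by
  obtain ⟨L, hL1, hL2, hL3⟩ := h.exists_half
  refine PMinor.mono G (by omega : t ≤ L.card)
    ⟨L.toList.map (fun v => (v, σ v)), by simp, ?_, ?_⟩
  · intro e he
    obtain ⟨v, hv, rfl⟩ := List.mem_map.1 he
    right
    have : v ∈ moved σ := hL3 (Finset.mem_toList.1 hv)
    exact h.adj_of_ne (by simpa [moved] using this)
  · rw [List.pairwise_map]
    refine List.Pairwise.imp_of_mem ?_ (Finset.nodup_toList L)
    intro v v' hv hv' hne
    rw [Finset.mem_toList] at hv hv'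
    have hvm : σ v ≠ v := by simpa [moved] using hL3 hv
    have hvm' : σ v' ≠ v' := by simpa [moved] using hL3 hv'
    have e2 : v ≠ σ v' := by
      intro e
      exact hL2 v' hv' (e ▸ hv)
    have e3 : σ v ≠ v' := by
      intro e
      exact hL2 v hv (e ▸ hv')
    have e4 : σ v ≠ σ v' := fun e => hne (h.injective e)
    exact ⟨hne, e2, e3, e4,
      h2K2 v (σ v) v' (σ v') (h.adj_of_ne hvm) (h.adj_of_ne hvm') hne e2 e3 e4⟩

variable {X : Finset W} {σ : W → W}

/-- A matching with the fewest unmatched vertices admits no improving rewiring. -/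
theorem IsMatch.no_improve (h : IsMatch G X σ)
    (hmin : ∀ σ', IsMatch G X σ' → (fixes σ).card ≤ (fixes σ').card)
    (ps : List (W × W)) (hnd : (entries ps).Nodup) (hadj : ∀ p ∈ ps, G.Adj p.1 p.2)
    (hX : ∀ v ∈ entries ps, v ∉ X) (hcl : ∀ v ∈ entries ps, σ v ∈ entries ps)
    (u : W) (hu : u ∈ entries ps) (hfix : σ u = u) : False := by
  obtain ⟨σ', h1, -, h3, h4⟩ := h.rewireList ps hnd hadj hX hcl
  have hsub : fixes σ' ⊆ (fixes σ).erase u := by
    intro v hv
    simp only [fixes, Finset.mem_filter, Finset.mem_univ, true_and] at hv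
    have hv' : v ∉ entries ps := fun hmem => h4 v hmem hv
    rw [Finset.mem_erase]
    refine ⟨fun e => hv' (e ▸ hu), ?_⟩
    simp only [fixes, Finset.mem_filter, Finset.mem_univ, true_and]
    rw [← h3 v hv']; exact hv
  have hlt : ((fixes σ).erase u).card < (fixes σ).card :=
    Finset.card_erase_lt_of_mem (by simp [fixes, hfix])
  have := Finset.card_le_card hsub
  have := hmin σ' h1
  omega

theorem IsMatch.nbr_moved (h : IsMatch G X σ)
    (hmin : ∀ σ', IsMatch G X σ' → (fixes σ).card ≤ (fixes σ').card)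
    {u w : W} (hu : σ u = u) (huX : u ∉ X) (hadj : G.Adj u w) (hwX : w ∉ X) : σ w ≠ w := by
  intro hw
  refine h.no_improve hmin [(u, w)] ?_ ?_ ?_ ?_ u ?_ hu
  · simp [entries, hadj.ne]
  · intro p hp
    simp only [List.mem_singleton] at hp
    subst hp; exact hadj
  · intro v hv
    simp only [entries, List.mem_cons, List.not_mem_nil, or_false] at hv
    rcases hv with rfl | rfl <;> assumption
  · intro v hv
    simp only [entries, List.mem_cons, List.not_mem_nil, or_false] at hv ⊢
    rcases hv with rfl | rfl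
    · left; exact hu
    · right; exact hw
  · simp [entries]

theorem IsMatch.no_aug3 (h : IsMatch G X σ)
    (hmin : ∀ σ', IsMatch G X σ' → (fixes σ).card ≤ (fixes σ').card)
    {u u' x : W} (hu : σ u = u) (hu' : σ u' = u') (huu' : u ≠ u') (huX : u ∉ X)
    (hu'X : u' ∉ X) (hx : σ x ≠ x) (h1 : G.Adj u x) (h2 : G.Adj u' (σ x)) : False := by
  have hy : σ (σ x) ≠ σ x := h.partner_ne hx
  have e1 : u ≠ x := ne_of_fix_of_moved hu hx
  have e2 : u ≠ σ x := ne_of_fix_of_moved hu hy
  have e3 : x ≠ σ x := fun e => hx e.symm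
  have e4 : x ≠ u' := (ne_of_fix_of_moved hu' hx).symm
  have e5 : σ x ≠ u' := (ne_of_fix_of_moved hu' hy).symm
  refine h.no_improve hmin [(u, x), (σ x, u')] ?_ ?_ ?_ ?_ u ?_ hu
  · simp [entries, e1, e2, e3, e4, e5, huu']
  · intro p hp
    simp only [List.mem_cons, List.not_mem_nil, or_false] at hp
    rcases hp with rfl | rfl
    · exact h1
    · exact h2.symm
  · intro v hv
    simp only [entries, List.mem_cons, List.not_mem_nil, or_false] at hv
    rcases hv with rfl | rfl | rfl | rfl
    · exact huX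
    · exact h.notMem_of_ne hx
    · exact h.notMem_of_ne hy
    · exact hu'X
  · intro v hv
    simp only [entries, List.mem_cons, List.not_mem_nil, or_false] at hv ⊢
    rcases hv with rfl | rfl | rfl | rfl
    · left; exact hu
    · right; right; left; rfl
    · right; left; exact h.invol _
    · right; right; right; exact hu'
  · simp [entries]

/-- Degree-sum inequality for two unmatched vertices of a maximum matching, with its
equality case. -/
theorem IsMatch.deg_sum (h : IsMatch G X σ)
    (hmin : ∀ σ', IsMatch G X σ' → (fixes σ).card ≤ (fixes σ').card)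
    {u u' : W} (hu : σ u = u) (hu' : σ u' = u') (huu' : u ≠ u') (huX : u ∉ X)
    (hu'X : u' ∉ X) :
    ((G.neighborFinset u).filter (· ∉ X)).card + ((G.neighborFinset u').filter (· ∉ X)).card
      ≤ (moved σ).card ∧
    (((G.neighborFinset u).filter (· ∉ X)).card + ((G.neighborFinset u').filter (· ∉ X)).card
      = (moved σ).card → ∀ x, σ x ≠ x → G.Adj u x ∨ G.Adj u' (σ x)) := by
  have hBcard : (((G.neighborFinset u').filter (· ∉ X)).image σ).card =
      ((G.neighborFinset u').filter (· ∉ X)).card :=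
    Finset.card_image_of_injective _ h.injective
  have hdisj : Disjoint ((G.neighborFinset u).filter (· ∉ X))
      (((G.neighborFinset u').filter (· ∉ X)).image σ) := by
    rw [Finset.disjoint_left]
    intro x hxA hxB
    simp only [Finset.mem_filter, Finset.mem_image, SimpleGraph.mem_neighborFinset] at hxA hxB
    obtain ⟨y, ⟨hy1, hy2⟩, rfl⟩ := hxB
    have hy : σ y ≠ y := h.nbr_moved hmin hu' hu'X hy1 hy2
    exact h.no_aug3 hmin hu hu' huu' huX hu'X (h.partner_ne hy) hxA.1
      (by rw [h.invol]; exact hy1)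
  have hsub : ((G.neighborFinset u).filter (· ∉ X)) ∪
      (((G.neighborFinset u').filter (· ∉ X)).image σ) ⊆ moved σ := by
    intro x hx
    rcases Finset.mem_union.1 hx with hx | hx
    · simp only [Finset.mem_filter, SimpleGraph.mem_neighborFinset] at hx
      simp only [moved, Finset.mem_filter, Finset.mem_univ, true_and]
      exact h.nbr_moved hmin hu huX hx.1 hx.2
    · simp only [Finset.mem_image, Finset.mem_filter, SimpleGraph.mem_neighborFinset] at hx
      obtain ⟨y, ⟨hy1, hy2⟩, rfl⟩ := hx
      simp only [moved, Finset.mem_filter, Finset.mem_univ, true_and]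
      exact h.partner_ne (h.nbr_moved hmin hu' hu'X hy1 hy2)
  have hunion := Finset.card_union_of_disjoint hdisj
  refine ⟨?_, ?_⟩
  · have := Finset.card_le_card hsub
    omega
  · intro heq x hx
    have hEq : ((G.neighborFinset u).filter (· ∉ X)) ∪
        (((G.neighborFinset u').filter (· ∉ X)).image σ) = moved σ :=
      Finset.eq_of_subset_of_card_le hsub (by omega)
    have hxm : x ∈ moved σ := by simp [moved, hx]
    rw [← hEq] at hxm
    rcases Finset.mem_union.1 hxm with hx' | hx'
    · simp only [Finset.mem_filter, SimpleGraph.mem_neighborFinset] at hx'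
      exact Or.inl hx'.1
    · simp only [Finset.mem_image, Finset.mem_filter, SimpleGraph.mem_neighborFinset] at hx'
      obtain ⟨y, ⟨hy1, -⟩, rfl⟩ := hx'
      right
      rw [h.invol]; exact hy1

/-- Equality case: the neighbourhoods of the two unmatched vertices are nested. -/
theorem IsMatch.nested_of_eq (h2K2 : TwoK2Free G) (h : IsMatch G X σ)
    (hmin : ∀ σ', IsMatch G X σ' → (fixes σ).card ≤ (fixes σ').card)
    {u u' : W} (hu : σ u = u) (hu' : σ u' = u') (huu' : u ≠ u') (huX : u ∉ X)
    (hu'X : u' ∉ X) (hall : ∀ x, σ x ≠ x → G.Adj u x ∨ G.Adj u' (σ x)) :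
    (∀ a, G.Adj u a → a ∉ X → G.Adj u' a) ∨ (∀ c, G.Adj u' c → c ∉ X → G.Adj u c) := by
  by_contra hcon
  push Not at hcon
  obtain ⟨⟨a, ha1, ha2, ha3⟩, ⟨c, hc1, hc2, hc3⟩⟩ := hcon
  have ham : σ a ≠ a := h.nbr_moved hmin hu huX ha1 ha2
  have hcm : σ c ≠ c := h.nbr_moved hmin hu' hu'X hc1 hc2
  have hbm : σ (σ a) ≠ σ a := h.partner_ne ham
  have hdm : σ (σ c) ≠ σ c := h.partner_ne hcm
  have hub : G.Adj u (σ a) := by
    rcases hall (σ a) hbm with h1 | h1
    · exact h1
    · rw [h.invol] at h1; exact absurd h1 ha3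
  have hu'd : G.Adj u' (σ c) := by
    rcases hall c hcm with h1 | h1
    · exact absurd h1 hc3
    · exact h1
  have hud : ¬G.Adj u (σ c) := fun h1 =>
    h.no_aug3 hmin hu hu' huu' huX hu'X hdm h1 (by rw [h.invol]; exact hc1)
  have hu'b : ¬G.Adj u' (σ a) := fun h1 => h.no_aug3 hmin hu hu' huu' huX hu'X ham ha1 h1
  have huu'adj : ¬G.Adj u u' := fun h1 => h.nbr_moved hmin hu huX h1 hu'X hu'
  have n1 : u ≠ a := ne_of_fix_of_moved hu ham
  have n2 : u ≠ σ a := ne_of_fix_of_moved hu hbm
  have n3 : u ≠ σ c := ne_of_fix_of_moved hu hdm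
  have n4 : u ≠ c := ne_of_fix_of_moved hu hcm
  have n5 : a ≠ σ a := fun e => ham e.symm
  have n6 : a ≠ σ c := fun e => hud (e ▸ ha1)
  have n7 : a ≠ c := fun e => hc3 (e ▸ ha1)
  have n8 : a ≠ u' := (ne_of_fix_of_moved hu' ham).symm
  have n9 : σ a ≠ σ c := fun e => hud (e ▸ hub)
  have n10 : σ a ≠ c := fun e => hc3 (e ▸ hub)
  have n11 : σ a ≠ u' := (ne_of_fix_of_moved hu' hbm).symm
  have n12 : σ c ≠ c := hcm
  have n13 : σ c ≠ u' := (ne_of_fix_of_moved hu' hdm).symm
  have n14 : c ≠ u' := (ne_of_fix_of_moved hu' hcm).symm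
  have hbd : G.Adj (σ a) (σ c) := by
    rcases h2K2 u (σ a) u' (σ c) hub hu'd huu' n3 n11 n9 with h1 | h1 | h1 | h1
    · exact absurd h1 huu'adj
    · exact absurd h1 hud
    · exact absurd h1.symm hu'b
    · exact h1
  refine h.no_improve hmin [(u, a), (σ a, σ c), (c, u')] ?_ ?_ ?_ ?_ u ?_ hu
  · simp [entries, n1, n2, n3, n4, n5, n6, n7, n8, n9, n10, n11, n12, n13, n14, huu']
  · intro p hp
    simp only [List.mem_cons, List.not_mem_nil, or_false] at hp
    rcases hp with rfl | rfl | rfl
    · exact ha1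
    · exact hbd
    · exact hc1.symm
  · intro v hv
    simp only [entries, List.mem_cons, List.not_mem_nil, or_false] at hv
    rcases hv with rfl | rfl | rfl | rfl | rfl | rfl
    · exact huX
    · exact h.notMem_of_ne ham
    · exact h.notMem_of_ne hbm
    · exact h.notMem_of_ne hdm
    · exact h.notMem_of_ne hcm
    · exact hu'X
  · intro v hv
    simp only [entries, List.mem_cons, List.not_mem_nil, or_false] at hv ⊢
    rcases hv with rfl | rfl | rfl | rfl | rfl | rfl
    · left; exact hu
    · right; right; left; rfl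
    · right; left; exact h.invol _
    · right; right; right; right; left; exact h.invol _
    · right; right; right; left; rfl
    · right; right; right; right; right; exact hu'
  · simp [entries]

end Counting

end Vale.Agent.Lib.P060
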