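import Vale.Agent.Lib.P060.TwoK2.Exist

namespace Vale.Agent.Lib.P060

open Classical

universe u

variable {W : Type u} [Fintype W] {G : SimpleGraph W}

/-- `σ` is a perfect matching of `G - q`. -/
def PerfQ (G : SimpleGraph W) (q : W) (σ : W → W) : Prop :=
  IsMatch G {q} σ ∧ ∀ v, σ v = v → v = q

/-- `v` is a non-neighbour of `q` other than `q` itself. -/
def InR (G : SimpleGraph W) (q : W) (v : W) : Prop := v ≠ q ∧ ¬G.Adj q v

/-- The vertices lying on a matching edge with both ends non-adjacent to `q`. -/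
noncomputable def bad (G : SimpleGraph W) (q : W) (σ : W → W) : Finset W :=
  Finset.univ.filter (fun v => InR G q v ∧ InR G q (σ v))

variable {q : W} {σ : W → W}

theorem PerfQ.fix (h : PerfQ G q σ) : σ q = q := h.1.avoid q (Finset.mem_singleton_self q)

theorem PerfQ.ne (h : PerfQ G q σ) {v : W} (hv : v ≠ q) : σ v ≠ v := fun e => hv (h.2 v e)

theorem PerfQ.ne_q (h : PerfQ G q σ) {v : W} (hv : v ≠ q) : σ v ≠ q := by
  intro e
  have := h.1.invol v
  rw [e, h.fix] at this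
  exact hv this.symm

theorem PerfQ.adj (h : PerfQ G q σ) {v : W} (hv : v ≠ q) : G.Adj v (σ v) :=
  h.1.adj_of_ne (h.ne hv)

theorem mem_bad {a : W} : a ∈ bad G q σ ↔ InR G q a ∧ InR G q (σ a) := by simp [bad]

theorem PerfQ.partner_bad (h : PerfQ G q σ) {a : W} (ha : a ∈ bad G q σ) :
    σ a ∈ bad G q σ := by
  rw [mem_bad] at ha ⊢
  rw [h.1.invol]
  exact ⟨ha.2, ha.1⟩

theorem ne_q_of_adj {y : W} (h : G.Adj q y) : y ≠ q := by
  rintro rfl
  exact G.loopless.irrefl _ h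

theorem pairs_pairwise (h2K2 : TwoK2Free G) {X : Finset W} (h : IsMatch G X σ) (L : Finset W)
    (hL2 : ∀ v ∈ L, σ v ∉ L) (hL3 : L ⊆ moved σ) :
    (L.toList.map (fun v => (v, σ v))).Pairwise (PairRel G) := by
  rw [List.pairwise_map]
  refine List.Pairwise.imp_of_mem ?_ (Finset.nodup_toList L)
  intro v v' hv hv' hne
  rw [Finset.mem_toList] at hv hv'
  have hvm : σ v ≠ v := by simpa [moved] using hL3 hv
  have hvm' : σ v' ≠ v' := by simpa [moved] using hL3 hv'
  have e2 : v ≠ σ v' := by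
    intro e
    exact hL2 v' hv' (e ▸ hv)
  have e3 : σ v ≠ v' := by
    intro e
    exact hL2 v hv (e ▸ hv')
  have e4 : σ v ≠ σ v' := fun e => hne (h.injective e)
  exact ⟨hne, e2, e3, e4,
    h2K2 v (σ v) v' (σ v') (h.adj_of_ne hvm) (h.adj_of_ne hvm') hne e2 e3 e4⟩

/-- General improvement lemma for perfect matchings of `G - q` with the fewest bad vertices. -/
theorem PerfQ.no_improve_gen (h : PerfQ G q σ)
    (hmin : ∀ σ', PerfQ G q σ' → (bad G q σ).card ≤ (bad G q σ').card)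
    (S : Finset W) (τ : W → W)
    (hσS : ∀ v ∈ S, σ v ∈ S) (hτS : ∀ v ∈ S, τ v ∈ S) (hτ2 : ∀ v ∈ S, τ (τ v) = v)
    (hτadj : ∀ v ∈ S, G.Adj v (τ v)) (hq : q ∉ S)
    (hgood : ∀ v ∈ S, G.Adj q v ∨ G.Adj q (τ v))
    (a : W) (ha : a ∈ S) (hbad : a ∈ bad G q σ) : False := by
  have key := h.1.rewire S τ hσS hτS hτ2 hτadj (fun v hv => by
    simp only [Finset.mem_singleton]
    rintro rfl
    exact hq hv)
  have hperf : PerfQ G q (fun v => if v ∈ S then τ v else σ v) := by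
    refine ⟨key, ?_⟩
    intro v hv
    by_cases hvS : v ∈ S
    · simp only [hvS, if_true] at hv
      exact absurd hv (hτadj v hvS).ne'
    · simp only [hvS, if_false] at hv
      exact h.2 v hv
  have hsub : bad G q (fun v => if v ∈ S then τ v else σ v) ⊆ (bad G q σ).erase a := by
    intro v hv
    rw [mem_bad] at hv
    have hvS : v ∉ S := by
      intro hvS
      simp only [hvS, if_true] at hv
      rcases hgood v hvS with hg | hg
      · exact hv.1.2 hg
      · exact hv.2.2 hg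
    simp only [hvS, if_false] at hv
    rw [Finset.mem_erase]
    exact ⟨fun e => hvS (e ▸ ha), mem_bad.2 hv⟩
  have hlt := Finset.card_erase_lt_of_mem hbad
  have := Finset.card_le_card hsub
  have := hmin _ hperf
  omega

/-- List form of the improvement lemma. -/
theorem PerfQ.no_improve (h : PerfQ G q σ)
    (hmin : ∀ σ', PerfQ G q σ' → (bad G q σ).card ≤ (bad G q σ').card)
    (ps : List (W × W)) (hnd : (entries ps).Nodup) (hadj : ∀ p ∈ ps, G.Adj p.1 p.2)
    (hq : q ∉ entries ps) (hcl : ∀ v ∈ entries ps, σ v ∈ entries ps)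
    (hgood : ∀ p ∈ ps, G.Adj q p.1 ∨ G.Adj q p.2)
    (a : W) (ha : a ∈ entries ps) (hbad : a ∈ bad G q σ) : False := by
  obtain ⟨σ', h1, h2, h3, h4⟩ := h.1.rewireList ps hnd hadj
    (fun v hv => by
      simp only [Finset.mem_singleton]
      rintro rfl
      exact hq hv) hcl
  have hperf : PerfQ G q σ' := by
    refine ⟨h1, ?_⟩
    intro v hv
    have hv' : v ∉ entries ps := fun hmem => h4 v hmem hv
    rw [h3 v hv'] at hv
    exact h.2 v hv
  have hsub : bad G q σ' ⊆ (bad G q σ).erase a := by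
    intro v hv
    rw [mem_bad] at hv
    have hv' : v ∉ entries ps := by
      intro hmem
      obtain ⟨p, hp, hvp⟩ := exists_of_mem_entries ps v hmem
      have hs := h2 p hp
      rcases hvp with rfl | rfl
      · rw [hs.1] at hv
        rcases hgood p hp with hg | hg
        · exact hv.1.2 hg
        · exact hv.2.2 hg
      · rw [hs.2] at hv
        rcases hgood p hp with hg | hg
        · exact hv.2.2 hg
        · exact hv.1.2 hg
    rw [Finset.mem_erase]
    refine ⟨fun e => hv' (e ▸ ha), ?_⟩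
    rw [mem_bad, ← h3 v hv']
    exact hv
  have hlt := Finset.card_erase_lt_of_mem hbad
  have := Finset.card_le_card hsub
  have := hmin σ' hperf
  omega

theorem PerfQ.no_swap (h : PerfQ G q σ)
    (hmin : ∀ σ', PerfQ G q σ' → (bad G q σ).card ≤ (bad G q σ').card)
    {a c : W} (ha : a ∈ bad G q σ) (hc1 : G.Adj q c) (hc2 : G.Adj q (σ c)) :
    ¬(G.Adj a c ∧ G.Adj (σ a) (σ c)) := by
  rintro ⟨h1, h2⟩
  obtain ⟨⟨haq, haN⟩, ⟨hbq, hbN⟩⟩ := mem_bad.1 ha
  have hcq : c ≠ q := ne_q_of_adj hc1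
  have hdq : σ c ≠ q := h.ne_q hcq
  have n1 : a ≠ c := fun e => haN (e ▸ hc1)
  have n2 : a ≠ σ a := fun e => h.ne haq e.symm
  have n3 : a ≠ σ c := fun e => haN (e ▸ hc2)
  have n4 : c ≠ σ a := fun e => hbN (e ▸ hc1)
  have n5 : c ≠ σ c := fun e => h.ne hcq e.symm
  have n6 : σ a ≠ σ c := fun e => hbN (e ▸ hc2)
  refine h.no_improve hmin [(a, c), (σ a, σ c)] ?_ ?_ ?_ ?_ ?_ a ?_ ha
  · simp [entries, n1, n2, n3, n4, n5, n6]
  · intro p hp
    simp only [List.mem_cons, List.not_mem_nil, or_false] at hp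
    rcases hp with rfl | rfl
    · exact h1
    · exact h2
  · simp only [entries, List.mem_cons, List.not_mem_nil, or_false, not_or]
    exact ⟨Ne.symm haq, Ne.symm hcq, Ne.symm hbq, Ne.symm hdq⟩
  · intro v hv
    simp only [entries, List.mem_cons, List.not_mem_nil, or_false] at hv ⊢
    rcases hv with rfl | rfl | rfl | rfl
    · right; right; left; rfl
    · right; right; right; rfl
    · left; exact h.1.invol _
    · right; left; exact h.1.invol _
  · intro p hp
    simp only [List.mem_cons, List.not_mem_nil, or_false] at hp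
    rcases hp with rfl | rfl
    · right; exact hc1
    · right; exact hc2
  · simp [entries]

/-- Both ends of a matching edge inside the neighbourhood of `q` see exactly one and the same
end of a bad edge. -/
theorem PerfQ.point (h2K2 : TwoK2Free G) (h : PerfQ G q σ)
    (hmin : ∀ σ', PerfQ G q σ' → (bad G q σ).card ≤ (bad G q σ').card)
    {a c : W} (ha : a ∈ bad G q σ) (hc1 : G.Adj q c) (hc2 : G.Adj q (σ c)) :
    (G.Adj a c ∧ G.Adj a (σ c) ∧ ¬G.Adj (σ a) c ∧ ¬G.Adj (σ a) (σ c)) ∨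
    (G.Adj (σ a) c ∧ G.Adj (σ a) (σ c) ∧ ¬G.Adj a c ∧ ¬G.Adj a (σ c)) := by
  obtain ⟨⟨haq, haN⟩, ⟨hbq, hbN⟩⟩ := mem_bad.1 ha
  have hab : G.Adj a (σ a) := h.adj haq
  have F3 : ∀ y, G.Adj q y → G.Adj a y ∨ G.Adj (σ a) y := by
    intro y hy
    rcases h2K2 q y a (σ a) hy hab (Ne.symm haq) (Ne.symm hbq) (fun e => haN (e ▸ hy))
      (fun e => hbN (e ▸ hy)) with h1 | h1 | h1 | h1
    · exact absurd h1 haN
    · exact absurd h1 hbN
    · exact Or.inl h1.symm
    · exact Or.inr h1.symm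
  have s1 := h.no_swap hmin ha hc1 hc2
  have s2 := h.no_swap hmin ha hc2 (by rw [h.1.invol]; exact hc1)
  rw [h.1.invol] at s2
  by_cases hac : G.Adj a c
  · left
    have h1 : ¬G.Adj (σ a) (σ c) := fun h' => s1 ⟨hac, h'⟩
    have h2 : G.Adj a (σ c) := (F3 (σ c) hc2).resolve_right h1
    have h3 : ¬G.Adj (σ a) c := fun h' => s2 ⟨h2, h'⟩
    exact ⟨hac, h2, h3, h1⟩
  · right
    have h1 : G.Adj (σ a) c := (F3 c hc1).resolve_left hac
    have h2 : ¬G.Adj a (σ c) := fun h' => s2 ⟨h', h1⟩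
    have h3 : G.Adj (σ a) (σ c) := (F3 (σ c) hc2).resolve_left h2
    exact ⟨h1, h3, hac, h2⟩

theorem PerfQ.no_mixed (h2K2 : TwoK2Free G) (h : PerfQ G q σ)
    (hmin : ∀ σ', PerfQ G q σ' → (bad G q σ).card ≤ (bad G q σ').card)
    {a x x' : W} (ha : a ∈ bad G q σ)
    (hx1 : G.Adj q x) (hx2 : G.Adj q (σ x)) (hx'1 : G.Adj q x') (hx'2 : G.Adj q (σ x'))
    (hxa : G.Adj a x) (hx'b : G.Adj (σ a) x') : ¬G.Adj x x' := by
  intro hxx'
  obtain ⟨⟨haq, haN⟩, ⟨hbq, hbN⟩⟩ := mem_bad.1 ha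
  obtain ⟨-, p2, p3, p4⟩ :
      G.Adj a x ∧ G.Adj a (σ x) ∧ ¬G.Adj (σ a) x ∧ ¬G.Adj (σ a) (σ x) := by
    rcases h.point h2K2 hmin ha hx1 hx2 with p | p
    · exact p
    · exact absurd hxa p.2.2.1
  obtain ⟨-, r2, r3, r4⟩ :
      G.Adj (σ a) x' ∧ G.Adj (σ a) (σ x') ∧ ¬G.Adj a x' ∧ ¬G.Adj a (σ x') := by
    rcases h.point h2K2 hmin ha hx'1 hx'2 with p | p
    · exact absurd hx'b p.2.2.1
    · exact p
  have hxq : x ≠ q := ne_q_of_adj hx1
  have hx'q : x' ≠ q := ne_q_of_adj hx'1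
  have hsxq : σ x ≠ q := ne_q_of_adj hx2
  have hsx'q : σ x' ≠ q := ne_q_of_adj hx'2
  have n1 : x ≠ x' := fun e => r3 (e ▸ hxa)
  have n2 : x ≠ a := fun e => haN (e ▸ hx1)
  have n3 : x ≠ σ x := fun e => h.ne hxq e.symm
  have n4 : x ≠ σ a := fun e => hbN (e ▸ hx1)
  have n5 : x ≠ σ x' := fun e => r4 (e ▸ hxa)
  have n6 : x' ≠ a := fun e => haN (e ▸ hx'1)
  have n7 : x' ≠ σ x := fun e => r3 (e ▸ p2)
  have n8 : x' ≠ σ a := fun e => hbN (e ▸ hx'1)
  have n9 : x' ≠ σ x' := fun e => h.ne hx'q e.symm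
  have n10 : a ≠ σ x := fun e => haN (e ▸ hx2)
  have n11 : a ≠ σ a := fun e => h.ne haq e.symm
  have n12 : a ≠ σ x' := fun e => haN (e ▸ hx'2)
  have n13 : σ x ≠ σ a := fun e => hbN (e ▸ hx2)
  have n14 : σ x ≠ σ x' := fun e => r4 (e ▸ p2)
  have n15 : σ a ≠ σ x' := fun e => hbN (e ▸ hx'2)
  refine h.no_improve hmin [(x, x'), (a, σ x), (σ a, σ x')] ?_ ?_ ?_ ?_ ?_ a ?_ ha
  · simp [entries, n1, n2, n3, n4, n5, n6, n7, n8, n9, n10, n11, n12, n13, n14, n15]
  · intro p hp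
    simp only [List.mem_cons, List.not_mem_nil, or_false] at hp
    rcases hp with rfl | rfl | rfl
    · exact hxx'
    · exact p2
    · exact r2
  · simp only [entries, List.mem_cons, List.not_mem_nil, or_false, not_or]
    exact ⟨Ne.symm hxq, Ne.symm hx'q, Ne.symm haq, Ne.symm hsxq, Ne.symm hbq, Ne.symm hsx'q⟩
  · intro v hv
    simp only [entries, List.mem_cons, List.not_mem_nil, or_false] at hv ⊢
    rcases hv with rfl | rfl | rfl | rfl | rfl | rfl
    · right; right; right; left; rfl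
    · right; right; right; right; right; rfl
    · right; right; right; right; left; rfl
    · left; exact h.1.invol _
    · right; right; left; exact h.1.invol _
    · right; left; exact h.1.invol _
  · intro p hp
    simp only [List.mem_cons, List.not_mem_nil, or_false] at hp
    rcases hp with rfl | rfl | rfl
    · left; exact hx1
    · right; exact hx2
    · right; exact hx'2
  · simp [entries]

/-- All matching edges inside the neighbourhood of `q` point to the same end of a bad edge. -/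
theorem PerfQ.all_point (h2K2 : TwoK2Free G) (h : PerfQ G q σ)
    (hmin : ∀ σ', PerfQ G q σ' → (bad G q σ).card ≤ (bad G q σ').card)
    {a : W} (ha : a ∈ bad G q σ) :
    (∀ y, G.Adj q y → G.Adj q (σ y) → ¬G.Adj (σ a) y) ∨
    (∀ y, G.Adj q y → G.Adj q (σ y) → ¬G.Adj a y) := by
  by_contra hcon
  push Not at hcon
  obtain ⟨⟨x', hx'1, hx'2, hx'b⟩, ⟨x, hx1, hx2, hxa⟩⟩ := hcon
  obtain ⟨-, p2, p3, p4⟩ :
      G.Adj a x ∧ G.Adj a (σ x) ∧ ¬G.Adj (σ a) x ∧ ¬G.Adj (σ a) (σ x) := by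
    rcases h.point h2K2 hmin ha hx1 hx2 with p | p
    · exact p
    · exact absurd hxa p.2.2.1
  obtain ⟨-, r2, r3, r4⟩ :
      G.Adj (σ a) x' ∧ G.Adj (σ a) (σ x') ∧ ¬G.Adj a x' ∧ ¬G.Adj a (σ x') := by
    rcases h.point h2K2 hmin ha hx'1 hx'2 with p | p
    · exact absurd hx'b p.2.2.1
    · exact p
  have hxq : x ≠ q := ne_q_of_adj hx1
  have hx'q : x' ≠ q := ne_q_of_adj hx'1
  have n1 : x ≠ x' := fun e => r3 (e ▸ hxa)
  have n5 : x ≠ σ x' := fun e => r4 (e ▸ hxa)
  have n7 : σ x ≠ x' := fun e => r3 (e ▸ p2)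
  have n14 : σ x ≠ σ x' := fun e => r4 (e ▸ p2)
  have hx1' : G.Adj q (σ (σ x)) := by rw [h.1.invol]; exact hx1
  have hx'1' : G.Adj q (σ (σ x')) := by rw [h.1.invol]; exact hx'1
  rcases h2K2 x (σ x) x' (σ x') (h.adj hxq) (h.adj hx'q) n1 n5 n7 n14 with h1 | h1 | h1 | h1
  · exact h.no_mixed h2K2 hmin ha hx1 hx2 hx'1 hx'2 hxa hx'b h1
  · exact h.no_mixed h2K2 hmin ha hx1 hx2 hx'2 hx'1' hxa r2 h1
  · exact h.no_mixed h2K2 hmin ha hx2 hx1' hx'1 hx'2 p2 hx'b h1
  · exact h.no_mixed h2K2 hmin ha hx2 hx1' hx'2 hx'1' p2 r2 h1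

theorem card_N_R (q : W) :
    (G.neighborFinset q).card + (Finset.univ.filter (InR G q)).card + 1 = Fintype.card W := by
  have h1 := Finset.card_filter_add_card_filter_not (s := (Finset.univ : Finset W).erase q)
    (fun v => G.Adj q v)
  have e1 : ((Finset.univ : Finset W).erase q).filter (fun v => G.Adj q v) =
      G.neighborFinset q := by
    ext v
    simp only [Finset.mem_filter, Finset.mem_erase, Finset.mem_univ, and_true,
      SimpleGraph.mem_neighborFinset]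
    constructor
    · exact fun h => h.2
    · intro h; exact ⟨ne_q_of_adj h, h⟩
  have e2 : ((Finset.univ : Finset W).erase q).filter (fun v => ¬G.Adj q v) =
      Finset.univ.filter (InR G q) := by
    ext v
    simp [InR]
  rw [e1, e2, Finset.card_erase_of_mem (Finset.mem_univ q), Finset.card_univ] at h1
  have : 0 < Fintype.card W := Fintype.card_pos_iff.2 ⟨q⟩
  omega

end Vale.Agent.Lib.P060
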